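import Vale.Agent.P261Z.Ser.Soc

/-!
# P261, block D3: the residue on a truncated polynomial ring

`Tr k N u τ`: `A = k[u]/(u_i ^ N)` and `τ` is the top coefficient.  The pairing `τ (f * g)` is
perfect (`Tr.perf`) and `τ (φ g * det Jac) = lam * τ g`, `lam = (det Jac) ^ N` (`Tr.res`).
-/

open Matrix TensorProduct

namespace P261.Ser

variable {p : ℕ} [hp : Fact p.Prime]

theorem sub_pow_pred {B : Type*} [CommRing B] (h : (p : B) = 0) (e : ℕ) (x y : B) :
    (x - y) ^ (p ^ e - 1) = ∑ a : Fin (p ^ e), x ^ (a : ℕ) * y ^ (a.rev : ℕ) := by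
  have hP : (p : Polynomial B) = 0 := natCast_zero_of Polynomial.C h
  have h1 : (Polynomial.X - Polynomial.C y) ^ (p ^ e - 1) =
      ∑ i ∈ Finset.range (p ^ e), Polynomial.X ^ i * Polynomial.C y ^ (p ^ e - 1 - i) := by
    apply (Polynomial.monic_X_sub_C y).isRegular.right
    change _ * _ = _ * _
    rw [geom_sum₂_mul, ← pow_succ, Nat.sub_add_cancel (pp_pos e), ← frp_apply hP, map_sub]
    rfl
  have h2 := congrArg (Polynomial.evalRingHom x) h1
  simp only [map_pow, map_sub, map_sum, map_mul, Polynomial.coe_evalRingHom, Polynomial.eval_X,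
    Polynomial.eval_C] at h2
  rw [h2, ← Fin.sum_univ_eq_sum_range (fun i => x ^ i * y ^ (p ^ e - 1 - i))]
  refine Finset.sum_congr rfl fun a _ => ?_
  rw [Fin.val_rev]
  congr 2
  omega

variable {ι : Type*} [Fintype ι]

/-- the monomial `u ^ a` -/
def mon {A : Type*} [CommRing A] (u : ι → A) {N : ℕ} (a : ι → Fin N) : A := ∏ i, u i ^ (a i : ℕ)

theorem map_mon {A B F : Type*} [CommRing A] [CommRing B] [FunLike F A B] [RingHomClass F A B]
    (f : F) (u : ι → A) {N : ℕ} (a : ι → Fin N) : f (mon u a) = mon (fun i => f (u i)) a := by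
  simp only [mon, map_prod, map_pow]

/-- `A = k[u]/(u_i ^ N)` and `τ` is the top coefficient. -/
structure Tr (k : Type*) {A : Type*} [CommRing k] [CommRing A] [Algebra k A] (N : ℕ) (u : ι → A)
    (τ : A →ₗ[k] k) : Prop where
  pow : ∀ i, u i ^ N = 0
  li : LinearIndependent k (mon u (N := N))
  sp : Submodule.span k (Set.range (mon u (N := N))) = ⊤
  top : ∀ a : ι → Fin N, τ (mon u a) = if ∀ i, (a i : ℕ) + 1 = N then 1 else 0

variable {k A : Type*} [CommRing k] [CommRing A] [Algebra k A] {N : ℕ} {u : ι → A}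
  {τ : A →ₗ[k] k}

theorem Tr.tau_prod (T : Tr k N u τ) (n : ι → ℕ) :
    τ (∏ i, u i ^ n i) = if ∀ i, n i + 1 = N then 1 else 0 := by
  by_cases h : ∀ i, n i < N
  · exact T.top fun i => ⟨n i, h i⟩
  · obtain ⟨i, hi⟩ := not_forall.1 h
    rw [Finset.prod_eq_zero (f := fun i => u i ^ n i) (Finset.mem_univ i)
      (pow_eq_zero_of_le (not_lt.1 hi) (T.pow i)), map_zero, if_neg]
    intro h'
    have := h' i
    omega

theorem Tr.tau_mul [DecidableEq ι] (T : Tr k N u τ) (a b : ι → Fin N) :
    τ (mon u a * mon u b) = if b = fun i => (a i).rev then 1 else 0 := by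
  rw [mon, mon, ← Finset.prod_mul_distrib]
  simp only [← pow_add]
  rw [T.tau_prod]
  refine if_congr ?_ rfl rfl
  rw [funext_iff]
  refine forall_congr' fun i => ?_
  have h1 := (a i).2
  rw [Fin.ext_iff, Fin.val_rev]
  omega

/-- the monomial basis -/
noncomputable def Tr.basis (T : Tr k N u τ) : Module.Basis (ι → Fin N) k A :=
  Module.Basis.mk T.li T.sp.ge

theorem Tr.basis_apply (T : Tr k N u τ) (a : ι → Fin N) : T.basis a = mon u a :=
  Module.Basis.mk_apply _ _ _

/-- the pairing `τ (f * g)` -/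
noncomputable def pair (τ : A →ₗ[k] k) : A →ₗ[k] Module.Dual k A :=
  (LinearMap.mul k A).compr₂ τ

@[simp] theorem pair_apply (τ : A →ₗ[k] k) (f g : A) : pair τ f g = τ (f * g) := rfl

/-- **The pairing is perfect.** -/
theorem Tr.perf (T : Tr k N u τ) : Function.Bijective (pair τ) := by
  classical
  let E : (ι → Fin N) ≃ (ι → Fin N) := Equiv.piCongrRight fun _ => Fin.revPerm
  have : pair τ = (T.basis.equiv T.basis.dualBasis E : A →ₗ[k] Module.Dual k A) := by
    refine T.basis.ext fun a => T.basis.ext fun b => ?_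
    rw [LinearEquiv.coe_coe, Module.Basis.equiv_apply, Module.Basis.dualBasis_apply_self,
      pair_apply, T.basis_apply, T.basis_apply, T.tau_mul]
    rfl
  rw [this]
  exact LinearEquiv.bijective _

theorem Tr.adjoin (T : Tr k N u τ) : Algebra.adjoin k (Set.range u) = ⊤ := by
  rw [eq_top_iff]
  intro x _
  have hx : x ∈ Submodule.span k (Set.range (mon u (N := N))) := T.sp ▸ Submodule.mem_top
  refine (Submodule.span_le (p := (Algebra.adjoin k (Set.range u)).toSubmodule)).2 ?_ hx
  rintro _ ⟨a, rfl⟩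
  exact Subalgebra.prod_mem _ fun i _ =>
    Subalgebra.pow_mem _ (Algebra.subset_adjoin (Set.mem_range_self i)) _

/-- `p ^ e`-th powers are constants. -/
theorem Tr.pow_const (h : (p : k) = 0) {e : ℕ} (T : Tr k (p ^ e) u τ) (x : A) :
    ∃ c : k, x ^ p ^ e = algebraMap k A c := by
  have hA : (p : A) = 0 := natCast_zero_of (algebraMap k A) h
  have hx : x ∈ Algebra.adjoin k (Set.range u) := T.adjoin ▸ Algebra.mem_top
  induction hx using Algebra.adjoin_induction with
  | mem x hx =>
    obtain ⟨i, rfl⟩ := hx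
    exact ⟨0, by rw [T.pow, map_zero]⟩
  | algebraMap r => exact ⟨r ^ p ^ e, by rw [map_pow]⟩
  | add x y _ _ hx hy =>
    obtain ⟨a, ha⟩ := hx
    obtain ⟨b, hb⟩ := hy
    exact ⟨a + b, by rw [add_pow_pp hA, ha, hb, map_add]⟩
  | mul x y _ _ hx hy =>
    obtain ⟨a, ha⟩ := hx
    obtain ⟨b, hb⟩ := hy
    exact ⟨a * b, by rw [mul_pow, ha, hb, map_mul]⟩

/-- `x ⊗ 1 - 1 ⊗ x` -/
noncomputable def df (k : Type*) {A : Type*} [CommRing k] [CommRing A] [Algebra k A] (x : A) :
    A ⊗[k] A := x ⊗ₜ 1 - 1 ⊗ₜ x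

/-- divided differences -/
theorem exists_df [DecidableEq ι] (hu : Algebra.adjoin k (Set.range u) = ⊤)
    (D : ι → Derivation k A A) (hD : ∀ j l, D j (u l) = if j = l then 1 else 0) (x : A) :
    ∃ E : ι → A ⊗[k] A, df k x = ∑ j, E j * df k (u j) ∧
      ∀ j, Algebra.TensorProduct.lmul' k (E j) = D j x := by
  have hx : x ∈ Algebra.adjoin k (Set.range u) := hu ▸ Algebra.mem_top
  induction hx using Algebra.adjoin_induction with
  | mem x hx =>
    obtain ⟨i, rfl⟩ := hx
    refine ⟨fun j => if j = i then 1 else 0, by simp, fun j => ?_⟩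
    rw [hD]
    by_cases hj : j = i <;> simp [hj]
  | algebraMap r =>
    refine ⟨0, ?_, fun j => by simp⟩
    simp only [df, Pi.zero_apply, zero_mul, Finset.sum_const_zero, Algebra.algebraMap_eq_smul_one,
      smul_tmul, sub_self]
  | add x y _ _ hx hy =>
    obtain ⟨E, hE, hE'⟩ := hx
    obtain ⟨F, hF, hF'⟩ := hy
    refine ⟨E + F, ?_, fun j => by rw [Pi.add_apply, map_add, map_add, hE', hF']⟩
    simp only [Pi.add_apply, add_mul, Finset.sum_add_distrib, ← hE, ← hF]
    simp only [df, add_tmul, tmul_add]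
    ring
  | mul x y _ _ hx hy =>
    obtain ⟨E, hE, hE'⟩ := hx
    obtain ⟨F, hF, hF'⟩ := hy
    refine ⟨fun j => (x ⊗ₜ 1) * F j + (1 ⊗ₜ y) * E j, ?_, fun j => ?_⟩
    · simp only [add_mul, Finset.sum_add_distrib, mul_assoc, ← Finset.mul_sum, ← hE, ← hF]
      simp only [df, mul_sub, Algebra.TensorProduct.tmul_mul_tmul, mul_one, one_mul, mul_comm y x]
      ring
    · simp only [map_add, map_mul, Algebra.TensorProduct.lmul'_apply_tmul, hE', hF', mul_one,
        one_mul, Derivation.leibniz, smul_eq_mul]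

theorem df_pow (h : (p : k) = 0) (e : ℕ) (x : A) : df k x ^ p ^ e = df k (x ^ p ^ e) := by
  have hA : (p : A ⊗[k] A) = 0 := natCast_zero_of (algebraMap k _) h
  rw [← frp_apply hA, df, map_sub, frp_apply, frp_apply, Algebra.TensorProduct.tmul_pow,
    Algebra.TensorProduct.tmul_pow, one_pow, df]

/-- the Bezoutian -/
theorem prod_df [DecidableEq ι] (h : (p : k) = 0) (e : ℕ) (w : ι → A) :
    ∏ i, df k (w i) ^ (p ^ e - 1) =
      ∑ a : ι → Fin (p ^ e), mon w a ⊗ₜ[k] mon w fun i => (a i).rev := by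
  have hA : (p : A ⊗[k] A) = 0 := natCast_zero_of (algebraMap k _) h
  simp only [df, sub_pow_pred hA]
  rw [Fintype.prod_sum]
  refine Finset.sum_congr rfl fun a _ => ?_
  have h1 : mon w a ⊗ₜ[k] mon w (fun i => (a i).rev) =
      Algebra.TensorProduct.includeLeftRingHom (mon w a) *
        Algebra.TensorProduct.includeRight (R := k) (A := A) (mon w fun i => (a i).rev) := by
    simp
  rw [h1, map_mon, map_mon, mon, mon, ← Finset.prod_mul_distrib]
  rfl

theorem mul_bez [DecidableEq ι] (h : (p : k) = 0) {e : ℕ} (T : Tr k (p ^ e) u τ)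
    (D : ι → Derivation k A A) (hD : ∀ j l, D j (u l) = if j = l then 1 else 0)
    (x : A ⊗[k] A) : x * ∏ i, df k (u i) ^ (p ^ e - 1) =
      (Algebra.TensorProduct.lmul' k x ⊗ₜ 1) * ∏ i, df k (u i) ^ (p ^ e - 1) := by
  have h1 : ∀ j, df k (u j) * ∏ i, df k (u i) ^ (p ^ e - 1) = 0 := by
    intro j
    rw [← Finset.mul_prod_erase _ _ (Finset.mem_univ j), ← mul_assoc, ← pow_succ',
      Nat.sub_add_cancel (pp_pos e), df_pow h, T.pow]
    simp [df]
  have h2 : ∀ b : A, df k b * ∏ i, df k (u i) ^ (p ^ e - 1) = 0 := by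
    intro b
    obtain ⟨E, hE, -⟩ := exists_df T.adjoin D hD b
    rw [hE, Finset.sum_mul]
    exact Finset.sum_eq_zero fun j _ => by rw [mul_assoc, h1, mul_zero]
  induction x using TensorProduct.induction_on with
  | zero => simp
  | add x y hx hy => rw [map_add, add_tmul, add_mul, add_mul, hx, hy]
  | tmul a b =>
    have h3 : (a * b) ⊗ₜ[k] (1 : A) = a ⊗ₜ b + (a ⊗ₜ 1) * df k b := by
      simp [df, mul_sub]
    rw [Algebra.TensorProduct.lmul'_apply_tmul, h3, add_mul, mul_assoc, h2, mul_zero, add_zero]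

/-- the Jacobian determinant of `w` -/
noncomputable def jac [DecidableEq ι] (D : ι → Derivation k A A) (w : ι → A) : A :=
  (Matrix.of fun i j => D j (w i)).det

theorem Tr.res_mon [DecidableEq ι] (h : (p : k) = 0) {e : ℕ} (T : Tr k (p ^ e) u τ)
    (D : ι → Derivation k A A) (hD : ∀ j l, D j (u l) = if j = l then 1 else 0)
    (w : ι → A) (hw : LinearIndependent k (mon w (N := p ^ e))) (lam : k)
    (hlam : jac D w ^ p ^ e = algebraMap k A lam) (a : ι → Fin (p ^ e)) :
    τ (mon w a * jac D w) = lam * τ (mon u a) := by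
  have hA : (p : A ⊗[k] A) = 0 := natCast_zero_of (algebraMap k _) h
  choose E hE hE' using fun i => exists_df T.adjoin D hD (w i)
  have h1 := socP hA e (Matrix.of E) (fun j => df k (u j)) fun j => by
    rw [df_pow h, T.pow]
    simp [df]
  have h2 : ∀ i, (Matrix.of E *ᵥ fun j => df k (u j)) i = df k (w i) := fun i => (hE i).symm
  simp only [h2] at h1
  have h3 : Algebra.TensorProduct.lmul' k (Matrix.of E).det = jac D w := by
    rw [AlgHom.map_det, jac]
    congr 1
    ext i j
    exact hE' i j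
  have h4 : (jac D w ⊗ₜ[k] (1 : A)) * ∏ i, df k (w i) ^ (p ^ e - 1) =
      lam • ∏ i, df k (u i) ^ (p ^ e - 1) := by
    rw [h1, ← mul_assoc, mul_bez h T D hD, map_mul, map_pow, h3,
      Algebra.TensorProduct.lmul'_apply_tmul, mul_one, ← pow_succ', Nat.sub_add_cancel (pp_pos e),
      hlam, Algebra.smul_def, Algebra.TensorProduct.algebraMap_apply]
  let P : A ⊗[k] A →ₗ[k] A := (TensorProduct.lid k A).toLinearMap ∘ₗ LinearMap.rTensor A τ
  have hP : ∀ x y : A, P (x ⊗ₜ y) = τ x • y := fun x y => by simp [P]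
  have h5 := congrArg P h4
  rw [prod_df h, prod_df h, Finset.mul_sum, map_smul, map_sum, map_sum] at h5
  simp only [Algebra.TensorProduct.tmul_mul_tmul, one_mul, hP] at h5
  have h6 : ∀ b : ι → Fin (p ^ e), τ (mon u b) • (mon u fun i => (b i).rev) =
      τ (mon u b) • mon w fun i => (b i).rev := by
    intro b
    rw [T.top]
    split_ifs with hb
    · have : ∀ i, ((b i).rev : ℕ) = 0 := fun i => by
        have := hb i
        rw [Fin.val_rev]
        omega
      simp only [mon, this, pow_zero]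
    · rw [zero_smul, zero_smul]
  simp only [h6, Finset.smul_sum, smul_smul] at h5
  have h7 : LinearIndependent k fun b : ι → Fin (p ^ e) => mon w fun i => (b i).rev :=
    hw.comp (fun (b : ι → Fin (p ^ e)) i => (b i).rev) fun b b' hb =>
      funext fun i => Fin.rev_injective (congrFun hb i)
  rw [mul_comm]
  exact Fintype.linearIndependent_iffₛ.1 h7 _ _ h5 a

/-- **Change of variables for the residue** (semilinear form). -/
theorem Tr.res' [DecidableEq ι] (h : (p : k) = 0) {e : ℕ} (T : Tr k (p ^ e) u τ)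
    (D : ι → Derivation k A A) (hD : ∀ j l, D j (u l) = if j = l then 1 else 0)
    (φ : A →+* A) (hφ : Function.Injective φ) (σ : k →+* k) (hσ : Function.Surjective σ)
    (hc : ∀ c, φ (algebraMap k A c) = algebraMap k A (σ c)) (lam : k)
    (hlam : jac D (fun i => φ (u i)) ^ p ^ e = algebraMap k A lam) (g : A) :
    τ (φ g * jac D fun i => φ (u i)) = lam * σ (τ g) := by
  have hs : ∀ (c : k) (x : A), φ (c • x) = σ c • φ x := fun c x => by
    rw [Algebra.smul_def, map_mul, hc, Algebra.smul_def]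
  have hw : LinearIndependent k (mon (fun i => φ (u i)) (N := p ^ e)) := by
    rw [Fintype.linearIndependent_iff]
    intro c hc0 a
    choose c' hc' using fun b => hσ (c b)
    have h1 : φ (∑ b, c' b • mon u b) = 0 := by
      rw [map_sum, ← hc0]
      exact Finset.sum_congr rfl fun b _ => by rw [hs, hc', map_mon]
    rw [← hc', Fintype.linearIndependent_iff.1 T.li c' ((map_eq_zero_iff φ hφ).1 h1) a, map_zero]
  have hg : g ∈ Submodule.span k (Set.range (mon u (N := p ^ e))) := T.sp ▸ Submodule.mem_top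
  induction hg using Submodule.span_induction with
  | mem x hx =>
    obtain ⟨a, rfl⟩ := hx
    rw [map_mon, T.res_mon h D hD _ hw lam hlam, T.top]
    split_ifs <;> simp
  | zero => simp
  | add x y _ _ hx hy => rw [map_add, add_mul, map_add, hx, hy, map_add, map_add, mul_add]
  | smul c x _ hx =>
    rw [hs, smul_mul_assoc, map_smul, hx, map_smul, smul_eq_mul, smul_eq_mul, map_mul]
    ring

/-- **Change of variables for the residue.** -/
theorem Tr.res [DecidableEq ι] (h : (p : k) = 0) {e : ℕ} (T : Tr k (p ^ e) u τ)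
    (D : ι → Derivation k A A) (hD : ∀ j l, D j (u l) = if j = l then 1 else 0)
    (φ : A →ₐ[k] A) (hφ : Function.Injective φ) (lam : k)
    (hlam : jac D (fun i => φ (u i)) ^ p ^ e = algebraMap k A lam) (g : A) :
    τ (φ g * jac D fun i => φ (u i)) = lam * τ g :=
  T.res' h D hD (φ : A →+* A) hφ (RingHom.id k) Function.surjective_id φ.commutes lam hlam g

end P261.Ser
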