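import Vale.Agent.P261Z.Ser.Defs
import Vale.Agent.P261Z.Ser.Res

/-!
# P261, block D3: coefficients, the ideals `IN`, the chain rule
-/

open MvPowerSeries
open Finsupp hiding some

namespace P261.Ser

open Vale.Agent.P261Z.Ev

variable {K : Type} [Field K] {c : ℕ}

theorem coeff_X_pow_mul' (j : Fin c) (N : ℕ) (f : RR K c) (d : Fin c →₀ ℕ) :
    coeff d ((X j : RR K c) ^ N * f) = if N ≤ d j then coeff (d - single j N) f else 0 := by
  rw [X_pow_eq, coeff_monomial_mul, one_mul]
  exact if_congr single_le_iff rfl rfl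

theorem mem_IN {i N : ℕ} {f : RR K c} : f ∈ IN K c i N ↔
    ∀ d : Fin c →₀ ℕ, (∀ j : Fin c, j.val < i → d j < N) → coeff d f = 0 := by
  classical
  refine ⟨fun h d hd => ?_, fun hf => ?_⟩
  · induction h using Submodule.span_induction generalizing d with
    | mem x hx =>
      obtain ⟨j, hj, rfl⟩ := hx
      change coeff d ((X j : RR K c) ^ N) = 0
      rw [← mul_one ((X j : RR K c) ^ N), coeff_X_pow_mul', if_neg (not_le.2 (hd j hj))]
    | zero => exact map_zero _
    | add x y _ _ hx hy => rw [map_add, hx d hd, hy d hd, add_zero]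
    | smul a x _ hx =>
      rw [smul_eq_mul, coeff_mul]
      refine Finset.sum_eq_zero fun q hq => ?_
      rw [hx q.2 fun j hj => lt_of_le_of_lt ?_ (hd j hj), mul_zero]
      rw [← Finset.HasAntidiagonal.mem_antidiagonal.1 hq]
      exact Nat.le_add_left _ _
  · have h : ∀ m : Fin c →₀ ℕ, ∃ o : Option (Fin c), (¬∀ j : Fin c, j.val < i → m j < N) →
        ∃ j, o = some j ∧ j.val < i ∧ N ≤ m j := fun m => by
      by_cases h : ∀ j : Fin c, j.val < i → m j < N
      · exact ⟨none, fun e => absurd h e⟩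
      · push Not at h
        obtain ⟨j, h1, h2⟩ := h
        exact ⟨some j, fun _ => ⟨j, rfl, h1, h2⟩⟩
    choose o ho using h
    obtain ⟨g, hg⟩ : ∃ g : Fin c → RR K c, ∀ j d, coeff d (g j) =
        if o (d + single j N) = some j then coeff (d + single j N) f else 0 :=
      ⟨fun j d => if o (d + single j N) = some j then coeff (d + single j N) f else 0,
        fun _ _ => rfl⟩
    have h1 : f = ∑ j ∈ lo c i, X j ^ N * g j := by
      ext m
      rw [map_sum]
      have h2 : ∀ j, coeff m ((X j : RR K c) ^ N * g j) =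
          if N ≤ m j ∧ o m = some j then coeff m f else 0 := fun j => by
        rw [coeff_X_pow_mul', hg]
        by_cases h3 : N ≤ m j
        · rw [if_pos h3, tsub_add_cancel_of_le (single_le_iff.2 h3)]
          simp only [h3, true_and]
        · simp only [h3, if_false, false_and]
      simp only [h2]
      by_cases h : ∀ j : Fin c, j.val < i → m j < N
      · simp [hf m h]
      · obtain ⟨j, e1, e2, e3⟩ := ho m h
        rw [Finset.sum_eq_single j, if_pos ⟨e3, e1⟩]
        · intro j' _ hj
          rw [if_neg]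
          exact fun e => hj (Option.some_injective _ (e.2.symm.trans e1))
        · exact fun e => absurd (mem_lo.2 e2) e
    rw [h1]
    exact Ideal.sum_mem _ fun j hj => Ideal.mul_mem_right _ _ (X_pow_mem (mem_lo.1 hj) N)

theorem IN_zero (N : ℕ) : IN K c 0 N = ⊥ := by
  rw [IN, Ideal.span_eq_bot]
  rintro _ ⟨j, hj, rfl⟩
  exact absurd hj (Nat.not_lt_zero _)

/-- `u j` is regular modulo `(u j' ^ N, j' < i)` if `i ≤ j`. -/
theorem mem_IN_of_mul {i N M : ℕ} {j : Fin c} (hj : i ≤ j) {f : RR K c}
    (h : X j ^ M * f ∈ IN K c i N) : f ∈ IN K c i N := by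
  rw [mem_IN] at h ⊢
  intro d hd
  have := h (d + single j M) fun j' hj' => by
    rw [Finsupp.add_apply, single_eq_of_ne (by omega), add_zero]
    exact hd j' hj'
  rwa [coeff_X_pow_mul', if_pos (by simp), add_tsub_cancel_right] at this

theorem mem_IN_succ {N : ℕ} {i : Fin c} {f : RR K c} :
    f ∈ IN K c (i + 1) N ↔ ∃ g, f - X i ^ N * g ∈ IN K c i N := by
  have h : IN K c (i + 1) N = Ideal.span {X i ^ N} ⊔ IN K c i N := by
    rw [IN, IN, ← Ideal.span_union, ← Set.image_singleton (f := fun j : Fin c => (X j : RR K c) ^ N),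
      ← Set.image_union]
    congr 2
    ext j
    simp only [Set.mem_ofPred_eq, Set.mem_union, Set.mem_singleton_iff, Fin.ext_iff]
    omega
  rw [h, Submodule.mem_sup]
  constructor
  · rintro ⟨y, hy, z, hz, rfl⟩
    obtain ⟨g, rfl⟩ := Ideal.mem_span_singleton.1 hy
    exact ⟨g, by rwa [add_sub_cancel_left]⟩
  · rintro ⟨g, hg⟩
    exact ⟨_, Ideal.mem_span_singleton.2 ⟨g, rfl⟩, _, hg, add_sub_cancel _ _⟩

theorem coeff_of_mem_pow {N : ℕ} {f : RR K c} (h : f ∈ IX (Fin c) K ^ N) (d : Fin c →₀ ℕ)
    (hd : d.degree < N) : coeff d f = 0 := by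
  classical
  induction N generalizing f d with
  | zero => omega
  | succ N ih =>
    rw [pow_succ] at h
    refine Submodule.mul_induction_on h (fun x hx y hy => ?_) fun x y hx hy => ?_
    · rw [coeff_mul]
      refine Finset.sum_eq_zero fun q hq => ?_
      have h1 : q.1.degree + q.2.degree = d.degree := by
        rw [← Finset.HasAntidiagonal.mem_antidiagonal.1 hq, map_add]
      by_cases h2 : q.2 = 0
      · rw [h2, coeff_zero_eq_constantCoeff_apply, mem_IX.1 hy, mul_zero]
      · have := mt (degree_eq_zero_iff q.2).1 h2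
        rw [ih hx q.1 (by omega), zero_mul]
    · rw [map_add, hx, hy, add_zero]

theorem pow_le_IN (N : ℕ) : IX (Fin c) K ^ (c * N + 1) ≤ IN K c c N := fun f hf =>
  mem_IN.2 fun d hd => coeff_of_mem_pow hf d <| by
    rw [degree_eq_sum]
    refine Nat.lt_succ_of_le ((Finset.sum_le_card_nsmul _ _ N fun j _ => (hd j j.2).le).trans ?_)
    simp

theorem IN_le_pow (i N : ℕ) : IN K c i N ≤ IX (Fin c) K ^ N := by
  refine Ideal.span_le.2 ?_
  rintro _ ⟨j, -, rfl⟩
  exact Ideal.pow_mem_pow (X_mem j) N

theorem eq_zero_of_mem {f : RR K c} (h : ∀ N, f ∈ IX (Fin c) K ^ N) : f = 0 := by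
  ext d
  exact coeff_of_mem_pow (h (d.degree + 1)) d (Nat.lt_succ_self _)

theorem pderiv_mem_pow (j : Fin c) {N : ℕ} {f : RR K c} (h : f ∈ IX (Fin c) K ^ (N + 1)) :
    pderiv K j f ∈ IX (Fin c) K ^ N :=
  mem_pow N _ fun d hd => by
    rw [coeff_pderiv, coeff_of_mem_pow h _ (by simpa using hd), zero_mul]

/-- **Chain rule.** -/
theorem chain (φ : RR K c →ₐ[K] RR K c) (hφ : ∀ i, φ (X i) ∈ IX (Fin c) K) (j : Fin c)
    (r : RR K c) : pderiv K j (φ r) = ∑ i, φ (pderiv K i r) * pderiv K j (φ (X i)) := by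
  have h1 : ∀ q : MvPolynomial (Fin c) K, pderiv K j (φ q) =
      ∑ i, φ (pderiv K i (q : RR K c)) * pderiv K j (φ (X i)) := by
    intro q
    induction q using MvPolynomial.induction_on with
    | C a =>
      have : φ (C a) = C a := φ.commutes a
      simp [this]
    | add q q' hq hq' =>
      simp only [MvPolynomial.coe_add, map_add, hq, hq', add_mul, Finset.sum_add_distrib]
    | mul_X q l hq =>
      simp only [MvPolynomial.coe_mul, MvPolynomial.coe_X, map_mul, Derivation.leibniz,
        smul_eq_mul, hq, map_add, add_mul, Finset.sum_add_distrib, Finset.mul_sum, mul_assoc]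
      congr 1
      rw [Finset.sum_eq_single l, pderiv_X_self, map_one, one_mul]
      · intro i _ hi
        rw [pderiv_X_of_ne hi.symm, map_zero, zero_mul, mul_zero]
      · exact fun e => absurd (Finset.mem_univ l) e
  rw [← sub_eq_zero]
  refine eq_zero_of_mem fun N => ?_
  have h2 := sub_trunc_mem (N + 1) r
  set q : MvPolynomial (Fin c) K := truncTotal (N + 1) r
  have h3 : r = (r - q) + q := (sub_add_cancel _ _).symm
  rw [h3]
  generalize r - q = y at h2
  simp only [map_add, add_mul, Finset.sum_add_distrib, h1, add_sub_add_right_eq_sub]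
  refine Ideal.sub_mem _ (pderiv_mem_pow j (map_mem_pow (φ : RR K c →+* RR K c) hφ h2))
    (Ideal.sum_mem _ fun i _ => Ideal.mul_mem_right _ _
      (map_mem_pow (φ : RR K c →+* RR K c) hφ (pderiv_mem_pow i h2)))

/-- the exponent with prescribed coordinates -/
noncomputable def ex (a : Fin c → ℕ) : Fin c →₀ ℕ := equivFunOnFinite.symm a

@[simp] theorem ex_apply (a : Fin c → ℕ) (i : Fin c) : ex a i = a i := rfl

theorem prod_X_pow (a : Fin c → ℕ) : ∏ i, (X i : RR K c) ^ a i = monomial (ex a) 1 := by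
  rw [monomial_one_eq, Finsupp.prod_fintype _ _ fun i => pow_zero _]
  rfl

/-- the top coefficient -/
noncomputable def top (K : Type) [Field K] (c : ℕ) {N : ℕ} (h : N ≠ 0) :
    (RR K c ⧸ IN K c c N) →ₗ[K] K :=
  ((IN K c c N).restrictScalars K).liftQ (coeff (ex fun _ => N - 1)) fun _ hf =>
    mem_IN.1 hf _ fun _ _ => Nat.sub_one_lt h

theorem top_mk {N : ℕ} (h : N ≠ 0) (f : RR K c) :
    top K c h (Ideal.Quotient.mk _ f) = coeff (ex fun _ => N - 1) f := rfl

theorem tr_top {N : ℕ} (h : N ≠ 0) :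
    Tr K N (fun i => Ideal.Quotient.mk (IN K c c N) (X i)) (top K c h) := by
  classical
  have hm : ∀ a : Fin c → Fin N, mon (fun i => Ideal.Quotient.mk (IN K c c N) (X i)) a =
      Ideal.Quotient.mkₐ K _ (monomial (ex fun i => a i) 1) := fun a => by
    rw [← map_mon, mon, prod_X_pow]
    rfl
  have he : ∀ a b : Fin c → Fin N, (ex fun i => (a i : ℕ)) = (ex fun i => (b i : ℕ)) ↔ a = b :=
    fun a b => ⟨fun e => funext fun i => Fin.ext (DFunLike.congr_fun e i), fun e => by rw [e]⟩
  have hc : ∀ (g : (Fin c → Fin N) → K) (a : Fin c → Fin N), coeff (ex fun i => (a i : ℕ))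
      (∑ b, (monomial (ex fun i => (b i : ℕ)) (g b • 1) : RR K c)) = g a := fun g a => by
    simp only [map_sum, coeff_monomial, he, smul_eq_mul, mul_one,
      Finset.sum_ite_eq, Finset.mem_univ, if_true]
  refine ⟨fun i => ?_, ?_, ?_, fun a => ?_⟩
  · rw [← map_pow, Ideal.Quotient.eq_zero_iff_mem]
    exact X_pow_mem i.2 N
  · rw [Fintype.linearIndependent_iff]
    intro g hg a
    simp only [hm, ← map_smul, ← map_sum] at hg
    rw [← hc g a]
    exact mem_IN.1 (Ideal.Quotient.eq_zero_iff_mem.1 hg) (ex fun i => (a i : ℕ))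
      fun j _ => (a j).2
  · rw [eq_top_iff]
    intro x _
    obtain ⟨f, rfl⟩ := Ideal.Quotient.mk_surjective x
    have : Ideal.Quotient.mk (IN K c c N) f = ∑ b : Fin c → Fin N,
        coeff (ex fun i => (b i : ℕ)) f • mon (fun i => Ideal.Quotient.mk (IN K c c N) (X i)) b := by
      simp only [hm, ← map_smul, ← map_sum]
      refine Ideal.Quotient.eq.2 (mem_IN.2 fun d hd => ?_)
      have e : d = ex fun i => ((⟨d i, hd i i.2⟩ : Fin N) : ℕ) := by
        ext i
        rfl
      have := hc (fun b => coeff (ex fun i => (b i : ℕ)) f) fun i => ⟨d i, hd i i.2⟩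
      rw [← e] at this
      rw [map_sub, this, sub_self]
    rw [this]
    exact Submodule.sum_mem _ fun b _ => Submodule.smul_mem _ _ (Submodule.subset_span ⟨b, rfl⟩)
  · rw [hm a, Ideal.Quotient.mkₐ_eq_mk, top_mk h, coeff_monomial]
    have : (ex fun _ => N - 1) = (ex fun i => (a i : ℕ)) ↔ ∀ i, (a i : ℕ) + 1 = N := by
      refine ⟨fun e i => ?_, fun e => ?_⟩
      · have := DFunLike.congr_fun e i
        simp only [ex_apply] at this
        omega
      · ext i
        have := e i
        simp only [ex_apply]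
        omega
    simp only [this]
    congr

theorem coeff_UU_mul {N N' : ℕ} (h : N ≠ 0) (hN : N ≤ N') (f : RR K c) :
    coeff (ex fun _ => N' - 1) (UU K c c ^ (N' - N) * f) = coeff (ex fun _ => N - 1) f := by
  rw [UU, lo_self, ← Finset.prod_pow, prod_X_pow fun _ => N' - N, coeff_monomial_mul, if_pos,
    one_mul]
  · congr 2
    ext i
    simp only [Finsupp.coe_tsub, Pi.sub_apply, ex_apply]
    omega
  · intro i
    simp only [ex_apply]
    omega

end P261.Ser
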