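import Vale.Agent.P261Z.Ser.Coef
import Vale.Agent.P261Z.N.RG
import Vale.Agent.P261Z.N.Log

/-!
# P261, block D3: the triangular action given by an action which lifts to the law
-/

set_option linter.all false

open MvPowerSeries

namespace P261.Ser

open Vale.Agent.P217 Vale.Agent.P251.F Vale.Agent.P261Z.Ev Vale.Agent.P261Z

theorem lCm_iff {K : Type} [Field K] {c : ℕ} {Y : Type*} [TopologicalSpace Y] (f : Y → RR K c) :
    LCm f ↔ ∀ d, IsLocallyConstant fun y => coeff d (f y) := by
  classical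
  constructor
  · intro h d
    refine (IsLocallyConstant.iff_eventually_eq _).2 fun y => ?_
    filter_upwards [(IsLocallyConstant.iff_eventually_eq _).1 (h (d.degree + 1)) y] with z hz
    have := coeff_of_mem_pow (Ideal.Quotient.eq.1 hz) d (Nat.lt_succ_self _)
    rwa [map_sub, sub_eq_zero] at this
  · intro h N
    refine (IsLocallyConstant.iff_eventually_eq _).2 fun y => ?_
    have h1 : ∀ᶠ z in nhds y, ∀ d ∈ {d : Fin c →₀ ℕ | d.degree < N}, coeff d (f z) = coeff d (f y) :=
      (Filter.eventually_all_finite (Finsupp.finite_of_degree_lt N)).2 fun d _ =>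
        (IsLocallyConstant.iff_eventually_eq _).1 (h d) y
    filter_upwards [h1] with z hz
    exact Ideal.Quotient.eq.2 (mem_pow N _ fun d hd => by rw [map_sub, hz d hd, sub_self])

theorem LCm.pow {K : Type} [Field K] {c : ℕ} {Y : Type*} [TopologicalSpace Y] {f : Y → RR K c}
    (h : LCm f) (n : ℕ) : LCm fun y => f y ^ n := by
  induction n with
  | zero => simpa only [pow_zero] using LCm.const (Y := Y) (1 : RR K c)
  | succ n ih => simpa only [pow_succ] using ih.mul h

namespace RGsa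

open N

variable (p : ℕ) [hp : Fact p.Prime] {S : Type} [CommRing S]

omit hp in
theorem cg_sum {F : Law S} {d : ℕ} (s : Finset ℕ) (a b : ℕ → Cv F) (h : ∀ i, N.Cg d (a i) (b i)) :
    N.Cg d (∑ i ∈ s, a i) (∑ i ∈ s, b i) := by
  induction s using Finset.induction_on with
  | empty => exact N.Cg.refl _ _
  | insert i s hi ih => rw [Finset.sum_insert hi, Finset.sum_insert hi]; exact (h i).add ih

/-- the first term of the `p`-series -/
theorem first (hS : (p : S) = 0) (v : ℕ → S) (M : ℕ) (hN : ∀ i, M ≤ i → v i = 0) (m : ℕ)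
    (hm : ∀ i < m, v i = 0) (d : ℕ) (hd : d ≤ p ^ (m + 1)) :
    PowerSeries.coeff d (multSeries (hz p v).toFG p) = if d = p ^ (m + 1) then v m else 0 := by
  have h1 : N.Cg (p ^ (m + 1) + 1) (p • xx (hz p v)) (N.mon p _ (v m) (m + 1) (xx _)) := by
    rw [pser p S hS v M hN]
    have h2 : N.mon p (hz p v) (v m) (m + 1) (xx _) =
        ∑ i ∈ Finset.range M, if i = m then N.mon p (hz p v) (v m) (m + 1) (xx _) else 0 := by
      rw [Finset.sum_ite_eq']
      split_ifs with h
      · rfl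
      · rw [hN m (not_lt.1 fun e => h (Finset.mem_range.2 e)), mon_zero]
    rw [h2]
    refine cg_sum _ _ _ fun i => ?_
    rcases lt_trichotomy i m with h | rfl | h
    · rw [if_neg h.ne, hm i h, mon_zero]
      exact N.Cg.refl _ _
    · rw [if_pos rfl]
      exact N.Cg.refl _ _
    · rw [if_neg h.ne']
      intro j hj
      have h3 : p ^ (m + 1) < p ^ (i + 1) := Nat.pow_lt_pow_right hp.out.one_lt (by omega)
      rw [mon_xx_ser, PowerSeries.coeff_C_mul, PowerSeries.coeff_X_pow, if_neg (by omega), mul_zero,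
        Cv.ser_zero, map_zero]
  have h4 := h1 d (by omega)
  rw [Cv.ser_nsmul, xx_ser, PowerSeries.X_subst, mon_xx_ser, PowerSeries.coeff_C_mul,
    PowerSeries.coeff_X_pow] at h4
  rw [h4]
  split_ifs <;> simp

omit hp in
/-- comparison of the first terms -/
theorem cmp {g P Q : PowerSeries S} {q : ℕ} (hq : 0 < q) {a b : S} (hg : PowerSeries.constantCoeff g = 0)
    (hP : ∀ d ≤ q, PowerSeries.coeff d P = if d = q then a else 0)
    (hQ : ∀ d ≤ q, PowerSeries.coeff d Q = if d = q then b else 0)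
    (h : (PowerSeries.subst P g : PowerSeries S) = PowerSeries.subst g Q) :
    PowerSeries.coeff 1 g * a = b * PowerSeries.coeff 1 g ^ q := by
  have hP0 : PowerSeries.constantCoeff P = 0 := by
    rw [← PowerSeries.coeff_zero_eq_constantCoeff_apply, hP 0 q.zero_le, if_neg hq.ne]
  obtain ⟨u, hu⟩ : PowerSeries.X ^ q ∣ P :=
    PowerSeries.X_pow_dvd_iff.2 fun d hd => by rw [hP d hd.le, if_neg hd.ne]
  obtain ⟨w, hw⟩ := PowerSeries.X_dvd_iff.2 hg
  have h1 := congrArg (PowerSeries.coeff q) h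
  rw [Lg.coeff_psubst _ hP0, Lg.coeff_psubst _ hg, Finset.sum_eq_single 1, Finset.sum_eq_single q,
    pow_one, hP q le_rfl, hQ q le_rfl, if_pos rfl, if_pos rfl] at h1
  · rw [h1]
    congr 1
    have h4 : PowerSeries.coeff 1 g = PowerSeries.constantCoeff w := by
      change PowerSeries.coeff (0 + 1) g = _
      rw [hw, PowerSeries.coeff_succ_X_mul, PowerSeries.coeff_zero_eq_constantCoeff_apply]
    rw [h4, hw, mul_pow, ← map_pow, ← PowerSeries.coeff_zero_eq_constantCoeff_apply,
      ← PowerSeries.coeff_X_pow_mul (w ^ q) q 0, zero_add]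
  · intro m hm hmq
    rw [hQ m (Nat.lt_succ_iff.1 (Finset.mem_range.1 hm)), if_neg hmq, zero_mul]
  · exact fun e => absurd (Finset.mem_range.2 (Nat.lt_succ_self q)) e
  · intro m _ hm
    rcases Nat.eq_zero_or_pos m with rfl | h0
    · rw [PowerSeries.coeff_zero_eq_constantCoeff_apply, hg, zero_mul]
    · have h5 : PowerSeries.X ^ (q + 1) ∣ P ^ m := by
        rw [hu, mul_pow, ← pow_mul]
        exact Dvd.dvd.mul_right (pow_dvd_pow _ (by nlinarith [show 2 ≤ m by omega])) _
      rw [PowerSeries.X_pow_dvd_iff.1 h5 q (Nat.lt_succ_self q), mul_zero]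
  · exact fun e => absurd (Finset.mem_range.2 (by omega)) e

theorem first_Fx (hS : (p : S) = 0) {h c : ℕ} (hh : 1 ≤ h) (x : Fin c → S) (i : Fin c)
    (hx : ∀ j < i, x j = 0) (d : ℕ) (hd : d ≤ p ^ (h + i)) :
    PowerSeries.coeff d (multSeries (Fx p h x).toFG p) = if d = p ^ (h + i) then x i else 0 := by
  obtain ⟨m, hm⟩ : ∃ m, h + i = m + 1 := ⟨h + i - 1, by omega⟩
  have hi := i.2
  have h1 : par (h + c) (exh h x) m = x i := by
    rw [par, if_pos (by omega), ← hm, exh_add]
  rw [hm] at hd ⊢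
  rw [← h1]
  refine first p hS _ (h + c) (fun k hk => ?_) m (fun k hk => ?_) d hd
  · rw [par, if_neg (by omega), if_neg (by omega)]
  · rw [par, if_pos (by omega), exh]
    split_ifs with h2
    · exact hx _ (by rw [Fin.lt_def]; dsimp only; omega)
    · rfl

/-- an isomorphism between two such laws -/
theorem iso_Fx (hS : (p : S) = 0) {h c : ℕ} (hh : 1 ≤ h) (x y : Fin c → S) (s : InvSeries S)
    (hs : s • Fx p h x = Fx p h y) (i : Fin c) (hx : ∀ j < i, x j = 0) (hy : ∀ j < i, y j = 0) :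
    x i = s.c 0 ^ (p ^ (h + i) - 1) * y i := by
  have hq : 0 < p ^ (h + i) := pow_pos hp.out.pos _
  have h1 := cmp hq s.cc (first_Fx p hS hh x i hx) (first_Fx p hS hh y i hy)
    (IsHom_multSeries ((InvSeries.smul_eq_iff_isHom _ _ _).1 hs) p)
  refine s.isUnit.mul_left_cancel (h1.trans ?_)
  obtain ⟨e, he⟩ : ∃ e, p ^ (h + i) = e + 1 := ⟨p ^ (h + i) - 1, by omega⟩
  rw [he, Nat.add_sub_cancel, InvSeries.c, zero_add]
  ring

variable {p} {h c : ℕ} {G K : Type} [Group G] [TopologicalSpace G] [Field K] [CharP K p]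

theorem tri (A : RG p h c G K) (hh : 1 ≤ h) (g : G) (i : Fin c) :
    A.phi g (X i) - (A.t g : RR K c) ^ (p ^ (h + i) - 1) * X i ∈
      Ideal.span ((X : Fin c → RR K c) '' {j | j < i}) := by
  induction i using WellFoundedLT.induction with
  | ind i ih =>
    set I : Ideal (RR K c) := Ideal.span ((X : Fin c → RR K c) '' {j | j < i}) with hI
    have hX : ∀ j < i, (X j : RR K c) ∈ I := fun j hj => Ideal.subset_span ⟨j, hj, rfl⟩
    have hφ : ∀ j < i, A.phi g (X j) ∈ I := fun j hj => by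
      have h1 : A.phi g (X j) - (A.t g : RR K c) ^ (p ^ (h + j) - 1) * X j ∈ I :=
        Ideal.span_mono (Set.image_mono fun k (hk : k < j) => show k < i from hk.trans hj) (ih j hj)
      have h2 := I.add_mem h1 (I.mul_mem_left ((A.t g : RR K c) ^ (p ^ (h + j) - 1)) (hX j hj))
      rwa [sub_add_cancel] at h2
    have h3 := congrArg (Law.map (Ideal.Quotient.mk I)) (A.law g)
    rw [InvSeries.map_smul, FR, Fx_map, Fx_map, Fx_map] at h3
    have h4 := iso_Fx p (natCast_zero_of (Ideal.Quotient.mk I) (p_RR p)) hh _ _ _ h3 i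
      (fun j hj => Ideal.Quotient.eq_zero_iff_mem.2 (hφ j hj))
      (fun j hj => Ideal.Quotient.eq_zero_iff_mem.2 (hX j hj))
    rw [InvSeries.c_map, ← map_pow, ← map_mul] at h4
    exact Ideal.Quotient.eq.1 h4

theorem t_lc (A : RG p h c G K) : LCm fun g => (A.t g : RR K c) := (lCm_iff _).2 (A.cont_ser 0)

end RGsa

variable {p : ℕ} [hp : Fact p.Prime] {h c : ℕ} {G K : Type} [Group G] [TopologicalSpace G] [Field K]
  [CharP K p]

/-- the triangular action -/
noncomputable def sa (A : N.RG p h c G K) (hh : 1 ≤ h) : SA G K c where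
  φ := A.phi
  b i g := A.t g ^ (p ^ (h + i) - 1)
  b_mul i g g' := by
    simp only [Units.val_pow_eq_pow_val]
    rw [A.t_mul, mul_pow, map_pow]
  tri g i := by
    rw [Units.val_pow_eq_pow_val]
    exact RGsa.tri A hh g i
  φ_lc r := (lCm_iff _).2 (A.cont_phi r)
  b_lc i := by
    simp only [Units.val_pow_eq_pow_val]
    exact (RGsa.t_lc A).pow _

variable (A : N.RG p h c G K) (hh : 1 ≤ h)

theorem sa_phi : (sa A hh).φ = A.phi := rfl

/-- the cocycle of the leading coefficient -/
noncomputable def tc : (sa A hh).Coc := ⟨A.t, A.t_mul, RGsa.t_lc A⟩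

theorem val_tc (g : G) : SA.val (tc A hh) g = (A.t g : RR K c) := rfl

theorem sa_bc (i : Fin c) : (sa A hh).bc i = tc A hh ^ (p ^ (h + i) - 1) := rfl

theorem val_bc (i : Fin c) (g : G) :
    SA.val ((sa A hh).bc i) g = (A.t g : RR K c) ^ (p ^ (h + i) - 1) := Units.val_pow_eq_pow_val _ _

theorem phi_v (hc : 0 < c) (g : G) :
    A.phi g (X ⟨0, hc⟩) = SA.val ((sa A hh).bc ⟨0, hc⟩) g * X ⟨0, hc⟩ := by
  have h1 := (sa A hh).tri g ⟨0, hc⟩
  have h2 : {j : Fin c | j < ⟨0, hc⟩} = ∅ := by
    ext j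
    simp [Fin.lt_def]
  rw [h2, Set.image_empty, Ideal.span_empty, Ideal.mem_bot, sub_eq_zero] at h1
  exact h1

end P261.Ser
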