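import Vale.Agent.P261Z.NM.Defs
import Vale.Agent.P261Z.Cs.Htpy

/-!
# P261, last step of block P: general facts on the complex `N`
-/

set_option linter.unusedSectionVars false

namespace P261.Ser

open P261.Cs P261.NM P261.NM.Act P261.NM.Act.Mod

variable {k R G ι : Type} [CommRing k] [CommRing R] [Algebra k R] [Group G] [TopologicalSpace G]
  {A : Act k R G ι} {M M' : Type} [AddCommGroup M] [Module R M] [AddCommGroup M'] [Module R M']
  {V : A.Mod M} {V' : A.Mod M'} {I J : Type}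

theorem lloc_fr (f : LHom V V') {χ : I → Option ι} (F : V.Coch I) (s : A.Den χ) :
    f.loc χ (fr F s) = fr (f.coch I F) s := rfl

theorem N_inj (f : LHom V V') (hf : Function.Injective f.Φ) (n : ℕ) :
    Function.Injective (f.N.app n) := by
  rw [injective_iff_map_eq_zero]
  intro x hx
  refine Subtype.ext (funext fun χ => ?_)
  obtain ⟨F, s, e⟩ := fr_surj (x.1 χ)
  have h : f.loc χ (x.1 χ) = 0 := congrFun (congrArg Subtype.val hx) χ
  rw [e, lloc_fr, fr_eq_zero] at h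
  obtain ⟨t, ht⟩ := h
  change x.1 χ = 0
  rw [e, fr_eq_zero]
  refine ⟨t, Subtype.ext (funext fun g => hf ?_)⟩
  have h1 : t.1.1 g • f.Φ (F.1 g) = 0 := congrFun (congrArg Subtype.val ht) g
  change f.Φ (t.1.1 g • F.1 g) = f.Φ 0
  rw [map_zero, ← h1]
  exact f.Φ.map_smulₛₗ _ _

theorem N_ker (f : LHom V V') {n : ℕ} {x : V.N.X n} (hx : f.N.app n x = 0) (χ) :
    ∃ F s, x.1 χ = fr F s ∧ ∀ g, f.Φ (F.1 g) = 0 := by
  obtain ⟨F, s, e⟩ := fr_surj (x.1 χ)
  have h : f.loc χ (x.1 χ) = 0 := congrFun (congrArg Subtype.val hx) χ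
  rw [e, lloc_fr, fr_eq_zero] at h
  obtain ⟨t, ht⟩ := h
  refine ⟨t.1 • F, t * s, by rw [fr_cancel, e], fun g => ?_⟩
  have h1 : t.1.1 g • f.Φ (F.1 g) = 0 := congrFun (congrArg Subtype.val ht) g
  rw [← h1]
  exact f.Φ.map_smulₛₗ _ _

theorem N_surj [IsTopologicalGroup G] (f : LHom V V') {n : ℕ} (y : V'.N.X n)
    (h : ∀ χ, ∃ F s, y.1 χ = fr F s ∧ ∃ F' ∈ Cts A.m (Fin (n + 1) → G) M,
      ∀ g, f.Φ (F' g) = F.1 g) : ∃ x, f.N.app n x = y := by
  have h1 : ∀ χ, ∃ z : V.Loc χ, f.loc χ z = y.1 χ ∧ ((∀ i, χ i ≠ none) → z = 0) := by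
    intro χ
    by_cases hχ : ∀ i, χ i ≠ none
    · exact ⟨0, by rw [map_zero]; exact (y.2 χ hχ).symm, fun _ => rfl⟩
    obtain ⟨F, s, e, F', hF', hf⟩ := h χ
    refine ⟨fr ⟨fun g => V.ρ (g 0) (F' fun i => (g 0)⁻¹ * g i),
      V.cts_ρ (continuous_apply 0) (cts_comp hF' (by fun_prop)), fun γ g => ?_⟩ s, ?_,
      fun h => absurd h hχ⟩
    · simp only [V.ρ_mul, mul_inv_rev, mul_assoc, inv_mul_cancel_left]
    · rw [lloc_fr, e]
      refine fr_congr _ fun g => ?_
      change f.Φ (V.ρ (g 0) (F' fun i => (g 0)⁻¹ * g i)) = _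
      rw [f.equi, hf, F.2.2, ρ_inv]
  choose z hz hz' using h1
  exact ⟨⟨z, fun χ hχ => hz' χ hχ⟩, Subtype.ext (funext hz)⟩

theorem cts_lift {Y : Type} [TopologicalSpace Y] (f : M →ₗ[R] M') (hf : Function.Surjective f)
    {m : Ideal R} {F : Y → M'} (hF : F ∈ Cts m Y M') : ∃ F' ∈ Cts m Y M, ∀ g, f (F' g) = F g := by
  refine cts_ind (P := fun F => ∃ F' ∈ Cts m Y M, ∀ g, f (F' g) = F g) ?_ ?_ ?_ hF
  · exact ⟨0, zero_mem _, fun _ => map_zero _⟩
  · rintro F₁ F₂ ⟨F₁', h₁, e₁⟩ ⟨F₂', h₂, e₂⟩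
    exact ⟨F₁' + F₂', add_mem h₁ h₂, fun g => by rw [Pi.add_apply, map_add, e₁, e₂, Pi.add_apply]⟩
  · intro a ha x
    obtain ⟨x, rfl⟩ := hf x
    exact ⟨_, cts_smul ha (cts_const x), fun g => map_smul f _ _⟩

theorem N_surj' [IsTopologicalGroup G] (f : LHom V V') (hf : Function.Surjective f.Φ) (n : ℕ) :
    Function.Surjective (f.N.app n) := fun y => N_surj f y fun χ => by
  obtain ⟨F, s, e⟩ := fr_surj (y.1 χ)
  exact ⟨F, s, e, cts_lift (f.Φ : M →ₗ[R] M') hf F.2.1⟩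

theorem lpull_smul (f : I → J) (χ : J → Option ι) (a : A.Gam I) (y : V.Loc (χ ∘ f)) :
    V.lpull f χ (a • y) = A.pull f a • V.lpull f χ y := by
  obtain ⟨F, s, rfl⟩ := fr_surj y
  rw [smul_fr, lpull_fr, lpull_fr, smul_fr]
  rfl

theorem smul_fr_self {χ : I → Option ι} (F : V.Coch I) (s : A.Den χ) : s.1 • fr F s = fr F 1 := by
  rw [smul_fr, ← fr_cancel F 1 s, mul_one]

section Acyc

variable [IsTopologicalGroup G] {j : ι} {E : M →ₗ[R] M}

theorem unit_of (h : ∀ x, A.u j • E x = x) (χ : I → Option ι)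
    (i : I) : IsUnit (algebraMap (A.Gam I) (Module.End (A.Gam I) (V.Loc χ)) (A.vx i (A.u j))) := by
  have h1 : ∀ F : V.Coch I, A.vx i (A.u j) • opc V V E i F = F := fun F =>
    Subtype.ext (funext fun g => by
      rw [smul_val, opc_val, Act.vx_val, ← V.semi, h, ρ_inv])
  have h2 : ∀ F : V.Coch I, opc V V E i (A.vx i (A.u j) • F) = F := fun F => by
    rw [map_smul, h1]
  rw [Module.End.isUnit_iff]
  constructor
  · rw [injective_iff_map_eq_zero]
    intro y hy
    obtain ⟨F, s, rfl⟩ := fr_surj y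
    rw [Module.algebraMap_end_apply, smul_fr, fr_eq_zero] at hy
    obtain ⟨t, ht⟩ := hy
    rw [smul_comm] at ht
    exact fr_eq_zero.2 ⟨t, by rw [← h2 (t.1 • F), ht, map_zero]⟩
  · intro y
    obtain ⟨F, s, rfl⟩ := fr_surj y
    exact ⟨fr (opc V V E i F) s, by rw [Module.algebraMap_end_apply, smul_fr, h1]⟩

/-- change the marks -/
def mark (j : ι) (ε : I → Bool) (χ : I → Option ι) : I → Option ι :=
  fun i => bif ε i then some j else χ i

theorem unit_den (h : ∀ x, A.u j • E x = x) (ε : I → Bool)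
    (χ : I → Option ι) (s : A.Den (mark j ε χ)) :
    IsUnit (algebraMap (A.Gam I) (Module.End (A.Gam I) (V.Loc χ)) s) := by
  obtain ⟨s, hs⟩ := s
  induction hs using Submonoid.closure_induction with
  | mem s hs =>
    obtain ⟨i, j', e, rfl⟩ := hs
    unfold mark at e
    cases hε : ε i
    · rw [hε] at e
      exact IsLocalizedModule.map_units (LocalizedModule.mkLinearMap (A.Den χ) (V.Coch I))
        ⟨_, A.vx_mem e⟩
    · rw [hε] at e
      obtain rfl : j = j' := Option.some_injective _ e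
      exact unit_of h χ i
  | one => exact (map_one (algebraMap (A.Gam I) (Module.End (A.Gam I) (V.Loc χ)))).symm ▸ isUnit_one
  | mul s t _ _ hs ht =>
    have := hs.mul ht
    rwa [← map_mul] at this

/-- the map which forgets the marks `j` -/
noncomputable def rs (V : A.Mod M) (h : ∀ x, A.u j • E x = x)
    (ε : I → Bool) (χ : I → Option ι) : V.Loc (mark j ε χ) →ₗ[A.Gam I] V.Loc χ :=
  LocalizedModule.lift (A.Den (mark j ε χ)) (LocalizedModule.mkLinearMap (A.Den χ) (V.Coch I))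
    (unit_den h ε χ)

theorem smul_rs (h : ∀ x, A.u j • E x = x) (ε : I → Bool)
    (χ : I → Option ι) (F : V.Coch I) (s : A.Den (mark j ε χ)) :
    s.1 • rs V h ε χ (fr F s) = fr F 1 := by
  rw [← map_smul, smul_fr_self]
  exact LocalizedModule.lift_mk_one _ _ _ _

theorem smul_inj (h : ∀ x, A.u j • E x = x) (ε : I → Bool)
    (χ : I → Option ι) (s : A.Den (mark j ε χ)) {y z : V.Loc χ} (e : s.1 • y = s.1 • z) : y = z :=
  ((Module.End.isUnit_iff _).1 (unit_den h ε χ s)).1 e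

/-- **`N` is acyclic if one of the `u j` is invertible on the module.** -/
theorem N_acyc (V : A.Mod M) (h : ∀ x, A.u j • E x = x) (n : ℕ) :
    Acyc V.N n := by
  intro x hx
  let H : ∀ n, (Fin (n + 1) → Bool) → V.N.X n →ₗ[k] V.N.X n := fun n ε =>
    { toFun := fun x => ⟨fun χ => rs V h ε χ (x.1 (mark j ε χ)), fun χ hχ => by
        change rs V h ε χ (x.1 (mark j ε χ)) = 0
        rw [show x.1 (mark j ε χ) = 0 from x.2 _ fun i => ?_, map_zero]
        unfold mark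
        cases ε i
        · exact hχ i
        · exact Option.some_ne_none j⟩
      map_add' := fun x y => Subtype.ext (funext fun χ => map_add (rs V h ε χ) _ _)
      map_smul' := fun a x => Subtype.ext (funext fun χ =>
        map_smul (rs V h ε χ) (A.cst _ a) _) }
  have h1 := htpy k V.N V.N H (fun m n f ε x => Subtype.ext (funext fun χ => by
    obtain ⟨F, s, e⟩ := fr_surj (x.1 (mark j (ε ∘ f) (χ ∘ f)))
    change rs V h ε χ (V.lpull f (mark j ε χ) (x.1 (mark j (ε ∘ f) (χ ∘ f)))) =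
      V.lpull f χ (rs V h (ε ∘ f) (χ ∘ f) (x.1 (mark j (ε ∘ f) (χ ∘ f))))
    rw [e]
    refine smul_inj h ε χ ⟨A.pull f s, A.den_pull f (mark j ε χ) _ s.2⟩ ?_
    rw [← lpull_smul, smul_rs]
    exact smul_rs h ε χ (V.pull f F) ⟨A.pull f s, A.den_pull f (mark j ε χ) _ s.2⟩)) n x hx
  have h2 : H n (fun _ => true) x = 0 := Subtype.ext (funext fun χ => by
    change rs V h _ χ (x.1 (mark j (fun _ => true) χ)) = 0
    rw [show x.1 (mark j (fun _ => true) χ) = 0 from x.2 _ fun i => Option.some_ne_none j,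
      map_zero])
  have h3 : H n (fun _ => false) x = x := Subtype.ext (funext fun χ => by
    obtain ⟨F, s, e⟩ := fr_surj (x.1 χ)
    change rs V h (fun _ => false) χ (x.1 χ) = x.1 χ
    rw [e]
    exact smul_inj h (fun _ => false) χ s
      ((smul_rs h (fun _ => false) χ F s).trans (smul_fr_self F s).symm))
  rwa [h2, h3, zero_sub, neg_mem_iff] at h1

end Acyc

/-- the coboundary of a cochain -/
noncomputable def dC {n : ℕ} (F : V.Coch (Fin (n + 1))) : V.Coch (Fin (n + 2)) :=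
  ∑ i : Fin (n + 2), (-1 : ℤ) ^ (i : ℕ) • V.pull (Fin.succAbove i) F

theorem dC_val {n : ℕ} (F : V.Coch (Fin (n + 1))) (g : Fin (n + 2) → G) :
    (dC F).1 g = ∑ i : Fin (n + 2), (-1 : ℤ) ^ (i : ℕ) • F.1 fun j => g (i.succAbove j) := by
  rw [dC, AddSubmonoidClass.coe_finsetSum, Finset.sum_apply]
  rfl

theorem d_fr {n : ℕ} (x : V.N.X n) (χ : Fin (n + 2) → Option ι) (F : V.Coch (Fin (n + 1)))
    (h : ∀ i : Fin (n + 2), x.1 (χ ∘ i.succAbove) = fr F 1) : (V.N.d n x).1 χ = fr (dC F) 1 := by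
  let L : V.Coch (Fin (n + 2)) →+ V.Loc χ := AddMonoidHom.mk' (fun F => fr F 1)
    fun F F' => fr_add F F' 1
  rw [HtpyAux.d_apply, AddSubmonoidClass.coe_finsetSum, Finset.sum_apply]
  change _ = L (dC F)
  rw [dC, map_sum]
  refine Finset.sum_congr rfl fun i _ => ?_
  change (-1 : k) ^ (i : ℕ) • V.lpull _ χ (x.1 (χ ∘ i.succAbove)) = _
  rw [map_zsmul, h, lpull_fr, ← Int.cast_smul_eq_zsmul k, Int.cast_pow, Int.cast_neg, Int.cast_one]
  exact congrArg (fun s => (-1 : k) ^ (i : ℕ) • fr (V.pull i.succAbove F) s)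
    (Subtype.ext (map_one (A.pull _)))

theorem den_none (s : A.Den fun _ : I => none) : s = 1 := by
  obtain ⟨s, hs⟩ := s
  refine Subtype.ext ((Submonoid.closure_le (S := ⊥)).2 ?_ hs)
  rintro _ ⟨i, j, e, -⟩
  exact absurd e (Option.some_ne_none j).symm

theorem fr_none_inj {F F' : V.Coch I}
    (h : fr F (1 : A.Den fun _ : I => none) = fr F' 1) : F = F' := by
  obtain ⟨t, ht⟩ := fr_eq.1 h
  rw [den_none t] at ht
  simpa using ht

theorem fr_none_surj (y : V.Loc fun _ : I => none) : ∃ F, y = fr F 1 := by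
  obtain ⟨F, s, e⟩ := fr_surj y
  exact ⟨F, by rw [e, den_none s]⟩

end P261.Ser
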