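import Vale.Agent.P261Z.Ser.Away
import Vale.Agent.P261Z.Ser.NGen

/-!
# P261, last step of block P: vanishing on `N(L)` implies vanishing on `H^c_m(L)`
-/

set_option linter.unusedSectionVars false

open MvPowerSeries

namespace P261.Ser

open P261.Cs P261.NM P261.NM.Act P261.NM.Act.Mod SA Vale.Agent.P261Z.Ev

variable {G K k : Type} [TopologicalSpace G] [Group G] [Field K] {c : ℕ} [CommRing k]
  [Algebra k (RR K c)]

/-- `A` is the action `S` -/
structure Cmp (S : SA G K c) (A : Act k (RR K c) G (Fin c)) : Prop where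
  m : A.m = IX (Fin c) K
  u : ∀ j, A.u j = X j
  φ : ∀ g r, A.φ g r = S.φ g r

/-- the action `S` as an `Act` -/
noncomputable def SA.toAct (S : SA G K c) (k : Type) [CommRing k] [Algebra k (RR K c)]
    (hk : ∀ g a, S.φ g (algebraMap k (RR K c) a) = algebraMap k (RR K c) a) :
    Act k (RR K c) G (Fin c) where
  m := IX (Fin c) K
  u := X
  φ :=
    { toFun := fun g => (S.φ g : RR K c →+* RR K c)
      map_one' := RingHom.ext S.φ_one
      map_mul' := fun g g' => RingHom.ext (S.φ_mul g g') }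
  φ_k := hk
  φ_m g r hr := by
    rw [← pow_one (IX (Fin c) K)] at hr ⊢
    exact map_mem_pow (S.φ g : RR K c →+* RR K c) (S.φ_X_mem g) hr
  φ_lc := S.φ_lc
  u_m := X_mem

theorem SA.cmp_toAct (S : SA G K c)
    (hk : ∀ g a, S.φ g (algebraMap k (RR K c) a) = algebraMap k (RR K c) a) :
    Cmp S (S.toAct k hk) := ⟨rfl, fun _ => rfl, fun _ _ => rfl⟩

namespace Cmp

variable {S : SA G K c} {A : Act k (RR K c) G (Fin c)} (hA : Cmp S A)

include hA in
theorem lc {Y : Type} [TopologicalSpace Y] {f : Y → RR K c} : f ∈ LC A.m Y ↔ LCm f := by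
  rw [hA.m]
  rfl

/-- the line with cocycle `l` -/
noncomputable def ln (l : S.Coc) : A.Mod (RR K c) where
  ρ :=
    { toFun := fun g => (AddMonoidHom.mulLeft (val l g)).comp
        (S.φ g : RR K c →+* RR K c).toAddMonoidHom
      map_one' := AddMonoidHom.ext fun x => by
        change val l 1 * S.φ 1 x = x
        rw [val_at_one, S.φ_one, one_mul]
      map_mul' := fun g g' => AddMonoidHom.ext fun x => by
        change val l (g * g') * S.φ (g * g') x = val l g * S.φ g (val l g' * S.φ g' x)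
        rw [val_coc, S.φ_mul, map_mul, mul_assoc] }
  semi g r x := by
    change val l g * S.φ g (r * x) = A.φ g r * (val l g * S.φ g x)
    rw [hA.φ, map_mul, mul_left_comm]
  adm x := by
    have := cts_smul (hA.lc.2 ((S.val_lc l).mul (S.φ_lc x))) (cts_const (1 : RR K c))
    simp only [smul_eq_mul, mul_one] at this
    exact this

theorem ln_ρ (l : S.Coc) (g : G) (x : RR K c) : (hA.ln l).ρ g x = val l g * S.φ g x := rfl

include hA in
theorem cts_cl (I : S.SI) (l : S.Coc) {Y : Type} [TopologicalSpace Y] {f : Y → RR K c}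
    (h : LCm f) : (fun y => cl I l (f y)) ∈ Cts A.m Y (S.Tw I l) := by
  have := cts_smul (hA.lc.2 h) (cts_const (cl I l 1))
  simp only [smul_cl, mul_one] at this
  exact this

include hA in
theorem exists_cl {I : S.SI} {l : S.Coc} {Y : Type} [TopologicalSpace Y] {F : Y → S.Tw I l}
    (h : F ∈ Cts A.m Y (S.Tw I l)) : ∃ f, LCm f ∧ ∀ y, cl I l (f y) = F y := by
  refine cts_ind (P := fun F => ∃ f, LCm f ∧ ∀ y, cl I l (f y) = F y) ?_ ?_ ?_ h
  · exact ⟨fun _ => 0, LCm.const 0, fun _ => map_zero _⟩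
  · rintro F₁ F₂ ⟨f₁, h₁, e₁⟩ ⟨f₂, h₂, e₂⟩
    exact ⟨_, h₁.add h₂, fun g => by rw [map_add, e₁, e₂, Pi.add_apply]⟩
  · intro a ha x
    obtain ⟨x, rfl⟩ := cl_surj I l x
    exact ⟨_, (hA.lc.1 ha).mul (LCm.const x), fun g => (smul_cl I l _ _).symm⟩

/-- the modules `Tw I l` -/
noncomputable def tw (I : S.SI) (l : S.Coc) : A.Mod (S.Tw I l) where
  ρ := DistribMulAction.toAddMonoidEnd G _
  semi g r x := by
    rw [hA.φ]
    exact g_smul I l g r x
  adm x := by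
    obtain ⟨x, rfl⟩ := cl_surj I l x
    exact hA.cts_cl I l ((S.val_lc l).mul (S.φ_lc x))

/-- multiplications -/
noncomputable def mu {I I' : S.SI} {l l' : S.Coc} {x : RR K c} (h : Mu I I' l l' x) :
    LHom (hA.tw I l) (hA.tw I' l') := ⟨SA.mul I I' l l' x h.mem, mul_equi h.mem h.equi⟩

theorem mu_cl {I I' : S.SI} {l l' : S.Coc} {x : RR K c} (h : Mu I I' l l' x) (y : RR K c) :
    (hA.mu h).Φ (cl I l y) = cl I' l' (x * y) := rfl

end Cmp

section Comp

variable {R ι : Type} [CommRing R] [Algebra k R] {A : Act k R G ι} {M₁ M₂ M₃ M₄ : Type}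
  [AddCommGroup M₁] [Module R M₁] [AddCommGroup M₂] [Module R M₂] [AddCommGroup M₃] [Module R M₃]
  [AddCommGroup M₄] [Module R M₄] {V₁ : A.Mod M₁} {V₂ : A.Mod M₂} {V₃ : A.Mod M₃} {V₄ : A.Mod M₄}

theorem N_comp (f : LHom V₁ V₂) (f' : LHom V₂ V₃) (f'' : LHom V₁ V₃)
    (h : ∀ a, f'.Φ (f.Φ a) = f''.Φ a) {n : ℕ} (x : V₁.N.X n) :
    f'.N.app n (f.N.app n x) = f''.N.app n x := N_ext x fun χ F s e => by
  rw [SHom.N_val, SHom.N_val, SHom.N_val, e, lloc_fr, lloc_fr, lloc_fr]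
  exact fr_congr _ fun g => h _

theorem N_sq (f : LHom V₁ V₂) (f' : LHom V₂ V₃) (g : LHom V₁ V₄) (g' : LHom V₄ V₃)
    (h : ∀ a, f'.Φ (f.Φ a) = g'.Φ (g.Φ a)) {n : ℕ} (x : V₁.N.X n) :
    f'.N.app n (f.N.app n x) = g'.N.app n (g.N.app n x) := N_ext x fun χ F s e => by
  rw [SHom.N_val, SHom.N_val, SHom.N_val, SHom.N_val, e, lloc_fr, lloc_fr, lloc_fr, lloc_fr]
  exact fr_congr _ fun g => h _

end Comp

namespace Cmp

variable [IsTopologicalGroup G] {S : SA G K c} {A : Act k (RR K c) G (Fin c)} (hA : Cmp S A)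

/-- the functor `N` on the modules `Tw I l` -/
noncomputable def nf : NFun S k where
  N I l := (hA.tw I l).N
  mul h := (hA.mu h).N
  comp h' h n a := N_comp _ _ _ (fun a => by
    obtain ⟨y, rfl⟩ := cl_surj _ _ a
    rw [mu_cl, mu_cl, mu_cl, mul_assoc]) a
  zero h hx n a := N_ext a fun χ F s e => by
    rw [SHom.N_val, e, lloc_fr]
    refine (fr_congr (F' := 0) _ fun g => ?_).trans (zero_fr _)
    obtain ⟨y, hy⟩ := cl_surj _ _ (F.1 g)
    rw [SHom.coch_val, ← hy, mu_cl]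
    exact (cl_eq_zero _ _).2 (Ideal.mul_mem_right _ _ hx)
  inj h hx n := N_inj _ (by
    rw [injective_iff_map_eq_zero]
    intro a ha
    obtain ⟨y, rfl⟩ := cl_surj _ _ a
    exact (cl_eq_zero _ _).2 (hx y ((cl_eq_zero _ _).1 ha))) n
  surj h n := N_surj' _ (fun a => by
    obtain ⟨y, rfl⟩ := cl_surj _ _ a
    exact ⟨cl _ _ y, by rw [mu_cl, one_mul]⟩) n
  exact h h' j N hs n a ha := N_surj _ a fun χ => by
    obtain ⟨F, s, e, hF⟩ := N_ker _ ha χ
    obtain ⟨f, hf, e'⟩ := hA.exists_cl F.2.1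
    refine ⟨F, s, e, _, hA.cts_cl _ _ (hf.shf j N), fun g => ?_⟩
    have h1 := hF g
    rw [← e', mu_cl, one_mul, cl_eq_zero] at h1
    rw [mu_cl, ← e', eq_comm, cl_eq]
    exact hs _ h1

variable (p : ℕ) [hp : Fact p.Prime] [CharP K p]

include hA in
theorem cts_aw (j : Fin c) (N : ℕ) {Y : Type} [TopologicalSpace Y] {F : Y → Aw K j N}
    (h : F ∈ Cts A.m Y (Aw K j N)) :
    ∃ m, ∀ m', m ≤ m' → ∃ f, LCm f ∧ ∀ y, aw j N (f y) * iw K j N ^ m' = F y := by
  refine cts_ind (P := fun F => ∃ m, ∀ m', m ≤ m' →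
    ∃ f, LCm f ∧ ∀ y, aw j N (f y) * iw K j N ^ m' = F y) ?_ ?_ ?_ h
  · exact ⟨0, fun _ _ => ⟨fun _ => 0, LCm.const 0, fun _ => by simp⟩⟩
  · rintro F₁ F₂ ⟨m₁, h₁⟩ ⟨m₂, h₂⟩
    refine ⟨max m₁ m₂, fun m hm => ?_⟩
    obtain ⟨f₁, h₁, e₁⟩ := h₁ m (le_of_max_le_left hm)
    obtain ⟨f₂, h₂, e₂⟩ := h₂ m (le_of_max_le_right hm)
    exact ⟨_, h₁.add h₂, fun g => by rw [map_add, add_mul, e₁, e₂, Pi.add_apply]⟩
  · intro a ha x
    obtain ⟨m, hm⟩ := aw_surj j x
    refine ⟨m, fun m' h => ?_⟩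
    obtain ⟨r, rfl⟩ := hm m' h
    exact ⟨_, (hA.lc.1 ha).mul (LCm.const r), fun g => by
      rw [map_mul, mul_assoc]
      rfl⟩

/-- the localised modules -/
noncomputable def awm (j : Fin c) (e : ℕ) (l : S.Coc) : A.Mod (Aw K j (p ^ e)) where
  ρ := S.ρw p j e l
  semi g r x := by
    rw [ρw_apply, ρw_apply, smul_aw, smul_aw, map_mul, ψ_aw, hA.φ, mul_left_comm]
  adm x := by
    obtain ⟨m, hm⟩ := aw_surj j x
    obtain ⟨r, rfl⟩ := hm (p ^ e * m) (Nat.le_mul_of_pos_left m (pp_pos e))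
    have := cts_smul (hA.lc.2 (((S.val_lc l).mul (S.φ_lc r)).mul
      (S.val_lc (S.bc j ^ (p ^ e * m))⁻¹))) (cts_const (iw K j (p ^ e) ^ (p ^ e * m)))
    convert this using 2 with g
    rw [ρw_apply, map_mul, ψ_aw, ψ_iw, smul_aw, map_mul, map_mul]
    ring

/-- division by a power of `u j` -/
noncomputable def th (j : Fin c) (e : ℕ) (l l' : S.Coc) (N m : ℕ) (hN : N = p ^ e * m)
    (h : l' = l * (S.bc j ^ N)⁻¹) : LHom (hA.tw (S.II p j e) l') (hA.awm p j e l) :=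
  ⟨S.θ p j e l' N, fun g a => by
    subst hN h
    exact S.θ_equi p j e l m g a⟩

theorem tors : hA.nf.Tors p := by
  intro j e l s a ha
  let t₀ := hA.th p j e l l 0 0 (mul_zero _).symm (by simp)
  have h1 := N_acyc (j := j) (E := LinearMap.mulLeft (RR K c) (iw K j (p ^ e))) (hA.awm p j e l)
    (fun x => by
      rw [hA.u, smul_aw, LinearMap.mulLeft_apply, ← mul_assoc, aw_iw, one_mul]) s _
    (t₀.N.map_cocycle ha)
  cases s with
  | zero =>
    obtain rfl : a = 0 := N_inj t₀ (S.θ_inj p j e l 0) 0 (h1.trans (map_zero _).symm)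
    exact ⟨e, le_rfl, by rw [map_zero]; exact zero_mem _⟩
  | succ n =>
    obtain ⟨y, hy⟩ := h1
    choose F s hF using fun χ => fr_surj (y.1 χ)
    choose m hm using fun χ => hA.cts_aw j _ (F χ).2.1
    obtain ⟨d, hd⟩ := (Set.finite_range m).bddAbove
    have he : e ≤ e + d := Nat.le_add_right _ _
    obtain ⟨m', hm'⟩ := exists_sub p he
    have hd' : d ≤ p ^ (e + d) - p ^ e := by
      have h2 : d < p ^ d := Nat.lt_pow_self hp.out.one_lt
      have h3 := pp_pos (p := p) e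
      rw [pow_add, Nat.le_sub_iff_add_le (Nat.le_mul_of_pos_right _ (pp_pos d))]
      nlinarith
    let t₁ := hA.th p j e l _ (p ^ (e + d) - p ^ e) m' hm' rfl
    obtain ⟨y', rfl⟩ := N_surj t₁ y fun χ => by
      obtain ⟨f, hf, e'⟩ := hm χ _ ((hd ⟨χ, rfl⟩).trans hd')
      exact ⟨F χ, s χ, hF χ, _, hA.cts_cl _ _ hf, e'⟩
    refine ⟨e + d, he, y', N_inj t₁ (S.θ_inj p j e _ _) _ ?_⟩
    refine ((t₁.N.map_d n y').trans hy).trans (N_comp (hA.mu (mu_X' p j he l)) t₁ t₀ (fun b => ?_)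
      a).symm
    obtain ⟨r, rfl⟩ := cl_surj _ _ b
    change aw j _ (_ * r) * _ = aw j _ r * _
    rw [map_mul, mul_right_comm, aw_iw_pow, pow_zero, mul_comm]

theorem kl_zero {x : RR K c} {l l' : S.Coc} (V V' : A.Mod (RR K c))
    (hV : ∀ g y, V.ρ g y = val l g * S.φ g y) (hV' : ∀ g y, V'.ρ g y = val l' g * S.φ g y)
    (f : LHom V V') (hf : ∀ y, f.Φ y = x * y) (hx : ∀ g, x * val l g = val l' g * S.φ g x)
    {s : ℕ} (H : Null f.N s) : hA.nf.Kl p 0 s x l l' := by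
  intro e a ha
  have hB : ∀ l : S.Coc, l * (S.B 0 ^ p ^ e)⁻¹ = l := fun l => by simp [B, lo_zero]
  let π : ∀ (l : S.Coc) (V : A.Mod (RR K c)), (∀ g y, V.ρ g y = val l g * S.φ g y) →
      LHom V (hA.tw (S.II p 0 e) (l * (S.B 0 ^ p ^ e)⁻¹)) := fun l V hV =>
    ⟨cl _ _, fun g y => by
      change cl (S.II p 0 e) (l * (S.B 0 ^ p ^ e)⁻¹) (V.ρ g y) =
        g • cl (S.II p 0 e) (l * (S.B 0 ^ p ^ e)⁻¹) y
      rw [g_cl, hV, hB]⟩
  obtain ⟨b, rfl⟩ := N_surj' (π l V hV) (cl_surj _ _) s a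
  have hb : V.N.d s b = 0 := N_inj (π l V hV) (by
    rw [injective_iff_map_eq_zero]
    intro y hy
    have : y ∈ IN K c 0 (p ^ e) := (cl_eq_zero _ _).1 hy
    rwa [IN_zero] at this) _ (((π l V hV).N.map_d s b).trans (ha.trans (map_zero _).symm))
  have hμ : Mu (S.II p 0 e) (S.II p 0 e) (l * (S.B 0 ^ p ^ e)⁻¹) (l' * (S.B 0 ^ p ^ e)⁻¹)
      (x * UU K c 0 ^ (p ^ e - p ^ e)) :=
    (mu_semi _ hx).cast (hB l).symm (hB l').symm (by simp)
  refine ⟨e, le_rfl, hμ, ?_⟩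
  have h1 := (π l' V' hV').N.map_bd (H b hb)
  rwa [N_sq f (π l' V' hV') (π l V hV) (hA.mu hμ) fun y => by
    change cl _ _ (f.Φ y) = cl _ _ (_ * y)
    rw [hf, Nat.sub_self, pow_zero, mul_one]] at h1

open Vale.Agent.P251.C in
theorem isCoch (e : ℕ) (l : S.Coc) {n : ℕ} (F : (Fin n → G) → S.T p e l) :
    F ∈ (hA.tw (S.II p c e) l).Coch (Fin n) ↔ IsCoch G F := by
  constructor
  · rintro ⟨h1, h2⟩
    obtain ⟨f, hf, e'⟩ := hA.exists_cl h1
    exact ⟨funext e' ▸ hf.quot (pow_le_IN (p ^ e)), h2⟩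
  · rintro ⟨h1, h2⟩
    choose σ hσ using cl_surj (S.II p c e) l
    have := hA.cts_cl (S.II p c e) l (f := fun y => σ (F y)) fun N =>
      h1.comp fun a => Ideal.Quotient.mk _ (σ a)
    simp only [hσ] at this
    exact ⟨this, h2⟩

open Vale.Agent.P251.C in
theorem kill_of_kl {x : RR K c} {l l' : S.Coc} {s : ℕ} (H : hA.nf.Kl p c s x l l') :
    S.Kill p s x l l' := by
  intro e F hF hd
  let F' : (hA.tw (S.II p c e) _).Coch (Fin (s + 1)) := ⟨F, (hA.isCoch p e _ F).2 hF⟩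
  let a : (hA.tw (S.II p c e) (l * (S.B c ^ p ^ e)⁻¹)).N.X s := ⟨fun χ => fr F' 1, fun χ hχ => by
    obtain ⟨j, hj⟩ := Option.ne_none_iff_exists'.1 (hχ 0)
    refine fr_eq_zero.2 ⟨⟨_, pow_mem (A.vx_mem hj) (p ^ e)⟩, Subtype.ext (funext fun g => ?_)⟩
    obtain ⟨y, hy⟩ := cl_surj _ _ (F g)
    change A.φ (g 0) (A.u j) ^ p ^ e • F g = 0
    rw [← hy, smul_cl, cl_eq_zero, hA.u, hA.φ, ← map_pow]
    exact Ideal.mul_mem_right _ _ ((S.II p c e).2 _ _ (X_pow_mem j.2 _))⟩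
  have ha : (hA.tw _ _).N.d s a = 0 := Subtype.ext (funext fun χ => by
    rw [d_fr a χ F' fun _ => rfl]
    refine (fr_congr (F' := 0) _ fun g => ?_).trans (zero_fr _)
    rw [dC_val]
    exact congrFun hd g)
  obtain ⟨e', he, hμ, h⟩ := H e a ha
  refine ⟨e', he, ?_⟩
  have h1 : ((hA.mu hμ).N.app s a).1 (fun _ => none) = fr ((hA.mu hμ).coch _ F') 1 := rfl
  cases s with
  | zero =>
    have h2 : (hA.mu hμ).N.app 0 a = 0 := h
    rw [h2] at h1
    have h3 := fr_none_inj ((zero_fr 1).trans h1)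
    refine ⟨0, ⟨IsLocallyConstant.const 0, fun g _ => (smul_zero g).symm⟩, fun _ => rfl, ?_⟩
    funext y
    refine Eq.trans ?_ (congrFun (congrArg Subtype.val h3) y)
    simp [Vale.Agent.P251.C.dd]
  | succ n =>
    obtain ⟨b, hb⟩ := h
    obtain ⟨Y, hY⟩ := fr_none_surj (b.1 fun _ => none)
    have h2 := d_fr b (fun _ => none) Y fun _ => hY
    have h3 : (hA.tw _ _).N.d n b = (hA.mu hμ).N.app (n + 1) a := hb
    rw [h3, h1] at h2
    refine ⟨Y.1, (hA.isCoch p e' _ _).1 Y.2, fun h => absurd h (Nat.succ_ne_zero n), ?_⟩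
    funext y
    exact (dC_val Y y).symm.trans (congrFun (congrArg Subtype.val (fr_none_inj h2)) y).symm

include hA in
/-- **Last step of block P.** -/
theorem kill_of_null {x : RR K c} {l l' : S.Coc} (V V' : A.Mod (RR K c))
    (hV : ∀ g y, V.ρ g y = val l g * S.φ g y) (hV' : ∀ g y, V'.ρ g y = val l' g * S.φ g y)
    (f : LHom V V') (hf : ∀ y, f.Φ y = x * y) {s : ℕ} (H : Null f.N (s + c)) :
    S.Kill p s x l l' := by
  have hx : ∀ g, x * val l g = val l' g * S.φ g x := fun g => by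
    have := f.equi g 1
    rwa [hf, hV, hV', hf, map_one, mul_one, mul_one] at this
  exact hA.kill_of_kl p (hA.nf.kl_of p (hA.tors p) hx c le_rfl s (hA.kl_zero p V V' hV hV' f hf hx H))

/-- multiplication by a power of `v` on lines -/
noncomputable def mv {v : RR K c} {β : S.Coc} (hv : ∀ g, S.φ g v = val β g * v) (a : ℕ)
    (l : S.Coc) : LHom (hA.ln l) (hA.ln (l * (β ^ a)⁻¹)) :=
  ⟨LinearMap.mulLeft (RR K c) (v ^ a), fun g y => by
    change v ^ a * (val l g * S.φ g y) = val (l * (β ^ a)⁻¹) g * S.φ g (v ^ a * y)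
    rw [map_mul]
    linear_combination S.φ g y * S.semi_pow hv a l g⟩

/-- **(BV) from the vanishing on `N`.** -/
theorem bv_of_null {v : RR K c} {β : S.Coc} (hv : ∀ g, S.φ g v = val β g * v) (l : S.Coc)
    (H : ∀ s, ∃ a, Null (hA.mv hv a l).N s) : S.BV p v β l := fun s => by
  obtain ⟨a, ha⟩ := H (s + c)
  exact ⟨a, hA.kill_of_null p _ _ (fun _ _ => rfl) (fun _ _ => rfl) _ (fun _ => rfl) ha⟩

end Cmp

end P261.Ser
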