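import Vale.Agent.P261Z.Ser.Defs

/-!
# P261, block D3: change of the field for `SA.Kill` and `SA.BV`
-/

open MvPowerSeries

namespace P261.Ser

open Vale.Agent.P251.C Vale.Agent.P261Z.T1 Vale.Agent.P261Z.Ev SA

variable {G k K : Type} [TopologicalSpace G] [Group G] [Field k] [Field K] {c : ℕ}
  {S : SA G k c} {S' : SA G K c} {io : k →+* K}

/-- the cocycle `l'` is the image of `l` -/
def Rel (io : k →+* K) (l : S.Coc) (l' : S'.Coc) : Prop :=
  ∀ g, val l' g = MvPowerSeries.map io (val l g)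

theorem Rel.one : Rel io (1 : S.Coc) (1 : S'.Coc) := fun g => by simp

theorem Rel.mul {l m : S.Coc} {l' m' : S'.Coc} (h : Rel io l l') (h' : Rel io m m') :
    Rel io (l * m) (l' * m') := fun g => by rw [val_mul, val_mul, map_mul, h g, h' g]

theorem Rel.pow {l : S.Coc} {l' : S'.Coc} (h : Rel io l l') (n : ℕ) : Rel io (l ^ n) (l' ^ n) :=
  fun g => by rw [val_pow, val_pow, map_pow, h g]

theorem Rel.inv {l : S.Coc} {l' : S'.Coc} (h : Rel io l l') : Rel io l⁻¹ l'⁻¹ := fun g =>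
  (S'.isUnit_val l' g).mul_left_cancel (by
    rw [val_mul_inv, h g, ← map_mul, val_mul_inv, map_one])

theorem Rel.B (hb : ∀ i g, (S'.b i g : RR K c) = MvPowerSeries.map io (S.b i g : RR k c))
    (i : ℕ) : Rel io (S.B i) (S'.B i) := by
  unfold SA.B
  induction lo c i using Finset.induction_on with
  | empty => simpa using Rel.one
  | insert j s hj h =>
    rw [Finset.prod_insert hj, Finset.prod_insert hj]
    exact Rel.mul (hb j) h

namespace Bvk

/-- an additive map of the rings induces a map of the quotients -/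
theorem exists_map {I : S.SI} {I' : S'.SI} (l : S.Coc) (l' : S'.Coc) (u : RR k c →+ RR K c)
    (h : ∀ x ∈ I.1, u x ∈ I'.1) :
    ∃ i : S.Tw I l →+ S'.Tw I' l', ∀ x, i (cl I l x) = cl I' l' (u x) :=
  ⟨QuotientAddGroup.map I.1.toAddSubgroup I'.1.toAddSubgroup u h, fun _ => rfl⟩

/-- an additive map applied to the coefficients -/
def PP (c : ℕ) (π : K →+ k) : RR K c →+ RR k c where
  toFun y := fun d => π (coeff d y)
  map_zero' := funext fun _ => π.map_zero
  map_add' _ _ := funext fun _ => π.map_add _ _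

theorem coeff_PP (π : K →+ k) (y : RR K c) (d : Fin c →₀ ℕ) :
    coeff d (PP c π y) = π (coeff d y) := rfl

variable {π : K →+ k}

theorem PP_mul (hπ : ∀ a b, π (io a * b) = a * π b) (r : RR k c) (y : RR K c) :
    PP c π (MvPowerSeries.map io r * y) = r * PP c π y := by
  classical
  ext d
  simp only [coeff_PP, coeff_mul, map_sum, coeff_map, hπ]

theorem PP_C (a : K) : PP c π (C a) = C (π a) := by
  classical
  ext d
  rw [coeff_PP, coeff_C, coeff_C]
  split_ifs
  exacts [rfl, π.map_zero]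

theorem PP_mem (hπ : ∀ a b, π (io a * b) = a * π b) {i N : ℕ} {y : RR K c} (hy : y ∈ IN K c i N) :
    PP c π y ∈ IN k c i N := by
  suffices h : ∀ z, PP c π (y * z) ∈ IN k c i N by simpa using h 1
  induction hy using Submodule.span_induction with
  | mem x hx =>
    obtain ⟨j, hj, rfl⟩ := hx
    intro z
    have h := PP_mul hπ (X j ^ N) z
    rw [map_pow, map_X] at h
    exact h ▸ Ideal.mul_mem_right _ _ (X_pow_mem hj N)
  | zero => simp
  | add x y _ _ h h' =>
    intro z
    rw [add_mul, map_add]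
    exact add_mem (h z) (h' z)
  | smul a x _ h =>
    intro z
    rw [smul_eq_mul, mul_comm a, mul_assoc]
    exact h _

theorem map_mem (io : k →+* K) {i N : ℕ} {y : RR k c} (hy : y ∈ IN k c i N) :
    MvPowerSeries.map io y ∈ IN K c i N := by
  refine (Ideal.span_le (I := (IN K c i N).comap (MvPowerSeries.map io))).2 ?_ hy
  rintro _ ⟨j, hj, rfl⟩
  simpa using X_pow_mem hj N

theorem exists_pow (K : Type) [Field K] (c N : ℕ) : ∃ M, IX (Fin c) K ^ M ≤ IN K c c N :=
  Ideal.exists_pow_le_of_le_radical_of_fg (Ideal.span_le.2 (by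
    rintro _ ⟨j, rfl⟩
    exact ⟨N, X_pow_mem j.2 N⟩)) (Submodule.fg_span (Set.finite_range _))

variable {p : ℕ} [Fact p.Prime] [CharP k p] [CharP K p]

theorem PP_φ (hπ : ∀ a b, π (io a * b) = a * π b)
    (hφ : ∀ g r, S'.φ g (MvPowerSeries.map io r) = MvPowerSeries.map io (S.φ g r)) (e : ℕ) (g : G)
    (y : RR K c) : PP c π (S'.φ g y) - S.φ g (PP c π y) ∈ IN k c c (p ^ e) := by
  have h1 : ∀ q : MvPolynomial (Fin c) K, PP c π (S'.φ g q) = S.φ g (PP c π q) := fun q => by
    induction q using MvPolynomial.induction_on' with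
    | monomial d a =>
      have h2 : ((MvPolynomial.monomial d a : MvPolynomial (Fin c) K) : RR K c) =
          MvPowerSeries.map io (monomial d 1) * C a := by
        rw [MvPolynomial.coe_monomial, map_monomial, map_one, ← monomial_zero_eq_C_apply,
          monomial_mul_monomial, add_zero, one_mul]
      have h3 : S'.φ g (C a) = C a := (S'.φ g).commutes a
      have h4 : S.φ g (C (π a)) = C (π a) := (S.φ g).commutes _
      rw [h2, map_mul, hφ, h3, PP_mul hπ, PP_mul hπ, PP_C, map_mul, h4]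
    | add q r h h' => simp only [MvPolynomial.coe_add, map_add, h, h']
  obtain ⟨M, hM⟩ := exists_pow K c (p ^ e)
  have h2 := hM (sub_trunc_mem M y)
  have h3 := sub_mem (PP_mem hπ ((S'.II p c e).2 g _ h2)) ((S.II p c e).2 g _ (PP_mem hπ h2))
  simp only [map_sub, h1] at h3
  rwa [sub_sub_sub_cancel_right] at h3

omit [TopologicalSpace G] [Group G] in
theorem dd_map {M N : Type} [AddCommGroup M] [AddCommGroup N] {n : ℕ} (u : M →+ N)
    (F : (Fin n → G) → M) : dd (fun x => u (F x)) = fun x => u (dd F x) := by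
  funext x
  simp [dd, map_sum, map_zsmul]

end Bvk

open Bvk

variable {p : ℕ} [Fact p.Prime] [CharP k p] [CharP K p]

theorem kill_of
    (hφ : ∀ g r, S'.φ g (MvPowerSeries.map io r) = MvPowerSeries.map io (S.φ g r))
    (hb : ∀ i g, (S'.b i g : RR K c) = MvPowerSeries.map io (S.b i g : RR k c))
    {l₁ l₂ : S.Coc} {l₁' l₂' : S'.Coc} (h₁ : Rel io l₁ l₁') (h₂ : Rel io l₂ l₂') {s : ℕ}
    {x : RR k c} (h : S'.Kill p s (MvPowerSeries.map io x) l₁' l₂') : S.Kill p s x l₁ l₂ := by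
  obtain ⟨π, hπ, h1⟩ : ∃ π : K →+ k, (∀ a b, π (io a * b) = a * π b) ∧ π 1 = 1 := by
    let := io.toAlgebra
    obtain ⟨π, hπ⟩ := (Algebra.linearMap k K).exists_leftInverse_of_injective
      (LinearMap.ker_eq_bot.2 io.injective)
    exact ⟨π, fun a b => π.map_smul a b, by simpa using LinearMap.congr_fun hπ 1⟩
  have hP : ∀ r : RR k c, PP c π (MvPowerSeries.map io r) = r := fun r => by
    rw [← mul_one (MvPowerSeries.map io r), PP_mul hπ, ← map_one (C : K →+* RR K c), PP_C, h1,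
      map_one, mul_one]
  intro e F hF hd
  have r₁ := h₁.mul ((Rel.B hb c).pow (p ^ e)).inv
  obtain ⟨i, hi⟩ := exists_map (I := S.II p c e) (I' := S'.II p c e) (l₁ * (S.B c ^ p ^ e)⁻¹)
    (l₁' * (S'.B c ^ p ^ e)⁻¹) (MvPowerSeries.map io).toAddMonoidHom fun x hx => map_mem io hx
  obtain ⟨e', he, Y, hY, h0, hdd⟩ := h e (fun y => i (F y)) ⟨hF.lc.comp i, fun g y => by
    rw [hF.equi]
    obtain ⟨a, ha⟩ := cl_surj _ _ (F y)
    rw [← ha, g_cl, hi, hi, g_cl, r₁ g]
    exact congrArg _ (by simp [hφ])⟩ (by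
      rw [dd_map, hd]
      exact funext fun _ => i.map_zero)
  have r₂ := h₂.mul ((Rel.B hb c).pow (p ^ e')).inv
  obtain ⟨j, hj⟩ := exists_map (I := S'.II p c e') (I' := S.II p c e')
    (l₂' * (S'.B c ^ p ^ e')⁻¹) (l₂ * (S.B c ^ p ^ e')⁻¹) (PP c π) fun x hx => PP_mem hπ hx
  refine ⟨e', he, fun y => j (Y y), ⟨hY.lc.comp j, fun g y => ?_⟩, fun hs => ?_, ?_⟩
  · rw [hY.equi]
    obtain ⟨a, ha⟩ := cl_surj _ _ (Y y)
    rw [← ha, g_cl, hj, hj, g_cl, r₂ g, PP_mul hπ, cl_eq, ← mul_sub]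
    exact Ideal.mul_mem_left _ _ (PP_φ hπ hφ e' g a)
  · rw [h0 hs]
    exact funext fun _ => j.map_zero
  · rw [dd_map, hdd]
    funext y
    obtain ⟨a, ha⟩ := cl_surj _ _ (F y)
    beta_reduce
    rw [← ha, tr, tr, hi, mul_cl, mul_cl, hj, ← hP (x * _ * a)]
    simp [UU]

theorem bv_of
    (hφ : ∀ g r, S'.φ g (MvPowerSeries.map io r) = MvPowerSeries.map io (S.φ g r))
    (hb : ∀ i g, (S'.b i g : RR K c) = MvPowerSeries.map io (S.b i g : RR k c))
    {β l : S.Coc} {β' l' : S'.Coc} (hβ : Rel io β β') (hl : Rel io l l') {v : RR k c}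
    (h : S'.BV p (MvPowerSeries.map io v) β' l') : S.BV p v β l := fun s =>
  (h s).imp fun A hA => kill_of hφ hb hl (hl.mul (hβ.pow A).inv) (by rwa [map_pow])

end P261.Ser
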