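import Vale.Agent.P261Z.Ser.Coef

/-!
# P261, block D3: equivariant Serre duality at finite level
-/

open MvPowerSeries Matrix

namespace P261.Ser

open Vale.Agent.P251.C Vale.Agent.P261Z.Ev

variable {G K : Type} [TopologicalSpace G] [Group G] [Field K] {c : ℕ}

theorem LCm.sum {Y ι : Type*} [TopologicalSpace Y] (s : Finset ι) {f : ι → Y → RR K c}
    (h : ∀ i ∈ s, LCm (f i)) : LCm fun y => ∑ i ∈ s, f i y := by
  classical
  induction s using Finset.induction_on with
  | empty => simpa using LCm.const 0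
  | insert a s ha ih =>
    simp only [Finset.sum_insert ha]
    exact (h a (Finset.mem_insert_self _ _)).add (ih fun i hi => h i (Finset.mem_insert_of_mem hi))

theorem LCm.prod {Y ι : Type*} [TopologicalSpace Y] (s : Finset ι) {f : ι → Y → RR K c}
    (h : ∀ i ∈ s, LCm (f i)) : LCm fun y => ∏ i ∈ s, f i y := by
  classical
  induction s using Finset.induction_on with
  | empty => simpa using LCm.const 1
  | insert a s ha ih =>
    simp only [Finset.prod_insert ha]
    exact (h a (Finset.mem_insert_self _ _)).mul (ih fun i hi => h i (Finset.mem_insert_of_mem hi))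

theorem LCm.pderiv {Y : Type*} [TopologicalSpace Y] {f : Y → RR K c} (h : LCm f) (j : Fin c) :
    LCm fun y => pderiv K j (f y) := fun N =>
  (h (N + 1)).comp (QuotientAddGroup.map (IX (Fin c) K ^ (N + 1)).toAddSubgroup
    (IX (Fin c) K ^ N).toAddSubgroup (MvPowerSeries.pderiv K j).toLinearMap.toAddMonoidHom
    fun _ hx => pderiv_mem_pow j hx)

theorem lo_image (i : Fin c) : (X : Fin c → RR K c) '' {j | j < i} =
    (fun j : Fin c => (X j : RR K c) ^ 1) '' {j : Fin c | j.val < i} := by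
  simp only [pow_one]
  rfl

namespace SA

variable (S : SA G K c)

theorem tri' (g : G) (i : Fin c) : S.φ g (X i) - val (S.bc i) g * X i ∈ IN K c i 1 := by
  rw [IN, ← lo_image]
  exact S.tri g i

theorem φ_X_mem (g : G) (i : Fin c) : S.φ g (X i) ∈ IX (Fin c) K := by
  have h := Ideal.add_mem _ (pow_one (IX (Fin c) K) ▸ IN_le_pow i 1 (S.tri' g i))
    (Ideal.mul_mem_left _ (val (S.bc i) g) (X_mem i))
  rwa [sub_add_cancel] at h

theorem cc_φ (g : G) (r : RR K c) : constantCoeff (S.φ g r) = constantCoeff r := by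
  have h1 : r - C (constantCoeff r) ∈ IX (Fin c) K ^ 1 := by
    rw [pow_one, mem_IX, map_sub, constantCoeff_C, sub_self]
  have h2 := map_mem_pow (S.φ g : RR K c →+* RR K c) (S.φ_X_mem g) h1
  have h3 : S.φ g (C (constantCoeff r)) = C (constantCoeff r) := (S.φ g).commutes _
  rw [pow_one, mem_IX, map_sub, map_sub, RingHom.coe_coe, h3, constantCoeff_C, sub_eq_zero] at h2
  exact h2

/-- the Jacobian matrix -/
noncomputable def Jm (g : G) : Matrix (Fin c) (Fin c) (RR K c) :=
  Matrix.of fun i j => pderiv K j (S.φ g (X i))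

theorem det_Jm_mul (g g' : G) : (S.Jm (g * g')).det = (S.Jm g).det * S.φ g (S.Jm g').det := by
  have : S.Jm (g * g') = (S.φ g).mapMatrix (S.Jm g') * S.Jm g := by
    ext1 i j
    rw [Jm, of_apply, φ_mul, chain _ (S.φ_X_mem g), Matrix.mul_apply]
    rfl
  rw [this, det_mul, AlgHom.map_det, mul_comm]

theorem det_Jm_one : (S.Jm 1).det = 1 := by
  have : S.Jm 1 = 1 := by
    ext1 i j
    rw [Jm, of_apply, φ_one, pderiv_X, Matrix.one_apply, Pi.single_apply]
  rw [this, det_one]

theorem isUnit_det_Jm (g : G) : IsUnit (S.Jm g).det :=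
  IsUnit.of_mul_eq_one (S.φ g (S.Jm g⁻¹).det) (by rw [← det_Jm_mul, mul_inv_cancel, det_Jm_one])

/-- the Jacobian cocycle -/
noncomputable def J : S.Coc := ⟨fun g => (S.isUnit_det_Jm g).unit, S.det_Jm_mul, by
  simp only [IsUnit.unit_spec, det_apply']
  exact LCm.sum _ fun σ _ => (LCm.const _).mul (LCm.prod _ fun i _ => (S.φ_lc _).pderiv _)⟩

theorem val_J (g : G) : val S.J g = (S.Jm g).det := rfl

theorem val_prod {ι : Type*} (s : Finset ι) (l : ι → S.Coc) (g : G) :
    val (∏ i ∈ s, l i) g = ∏ i ∈ s, val (l i) g := by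
  classical
  induction s using Finset.induction_on with
  | empty => simp
  | insert a s ha ih => rw [Finset.prod_insert ha, Finset.prod_insert ha, val_mul, ih]

theorem cc_J (g : G) : constantCoeff (val S.J g) = constantCoeff (val (S.B c) g) := by
  have h : ∀ i j : Fin c, i ≤ j → constantCoeff (S.Jm g i j) =
      if i = j then constantCoeff (val (S.bc i) g) else 0 := by
    intro i j hij
    have h1 := mem_IN.1 (S.tri' g i) (Finsupp.single j 1) fun j' hj' => by
      rw [Finsupp.single_eq_of_ne (by omega)]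
      exact Nat.one_pos
    rw [map_sub, sub_eq_zero, mul_comm, ← pow_one (X i : RR K c), coeff_X_pow_mul'] at h1
    rw [Jm, of_apply, ← coeff_zero_eq_constantCoeff_apply, coeff_pderiv, zero_add, ← pow_one (X i),
      h1]
    by_cases e : i = j
    · subst e
      simp
    · simp [e, Finsupp.single_eq_of_ne e]
  rw [val_J, RingHom.map_det, det_of_isLowerTriangular, B, lo_self, val_prod, map_prod]
  · exact Finset.prod_congr rfl fun i _ => (h i i le_rfl).trans (if_pos rfl)
  · intro i j hij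
    have hij' : i < j := hij
    exact (h i j hij'.le).trans (if_neg hij'.ne)

variable (p : ℕ) [hp : Fact p.Prime] [CharP K p]

theorem sub_pow_mem (e : ℕ) {x y : RR K c} (h : constantCoeff x = constantCoeff y) :
    x ^ p ^ e - y ^ p ^ e ∈ IN K c c (p ^ e) := by
  have h1 : x - y ∈ IX (Fin c) K := by rw [mem_IX, map_sub, h, sub_self]
  have h2 := Ideal.mem_map_of_mem (frp (p_RR p) e) h1
  rw [map_sub, Ideal.map_span, ← Set.range_comp] at h2
  refine Ideal.span_mono ?_ h2
  rintro _ ⟨j, rfl⟩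
  exact ⟨j, j.2, rfl⟩

instance (e : ℕ) (l : S.Coc) : DiscMod G (S.T p e l) := discMod _ _ (pow_le_IN (p ^ e))

instance (e : ℕ) (l : S.Coc) : Module.Finite K (S.T p e l) :=
  Module.Finite.of_basis (tr_top (K := K) (c := c) (pp_pos (p := p) e).ne').basis

/-- the residue pairing -/
noncomputable def pair (e : ℕ) (l l' : S.Coc) : S.T p e l →ₗ[K] Module.Dual K (S.T p e l') :=
  Ser.pair (top K c (pp_pos (p := p) e).ne')

theorem pair_cl (e : ℕ) (l l' : S.Coc) (x y : RR K c) :
    S.pair p e l l' (cl _ l x) (cl _ l' y) = coeff (ex fun _ => p ^ e - 1) (x * y) := rfl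

/-- **The pairing is perfect.** -/
theorem pair_bij (e : ℕ) (l l' : S.Coc) : Function.Bijective (S.pair p e l l') :=
  (tr_top (K := K) (c := c) (pp_pos (p := p) e).ne').perf

theorem pair_comm (e : ℕ) (l l' : S.Coc) (a : S.T p e l) (a' : S.T p e l') :
    S.pair p e l l' a a' = S.pair p e l' l a' a := by
  obtain ⟨x, rfl⟩ := cl_surj _ _ a
  obtain ⟨y, rfl⟩ := cl_surj _ _ a'
  rw [pair_cl, pair_cl, mul_comm]

theorem pair_smul (e : ℕ) (l l' : S.Coc) (r : RR K c) (a : S.T p e l) (a' : S.T p e l') :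
    S.pair p e l l' (r • a) a' = S.pair p e l l' a (r • a') := by
  obtain ⟨x, rfl⟩ := cl_surj _ _ a
  obtain ⟨y, rfl⟩ := cl_surj _ _ a'
  rw [smul_cl, smul_cl, pair_cl, pair_cl, mul_left_comm, mul_assoc]

@[simp] theorem tr_cl (i : ℕ) {e e' : ℕ} (h : e ≤ e') (x : RR K c) (l l' : S.Coc) (y : RR K c) :
    S.tr (p := p) i h x l l' (cl _ l y) = cl _ l' (x * UU K c i ^ (p ^ e' - p ^ e) * y) := rfl

@[simp] theorem pr_cl (i : ℕ) {e e' : ℕ} (h : e ≤ e') (l : S.Coc) (y : RR K c) :
    S.pr (p := p) i h l (cl _ l y) = cl _ l y := congrArg _ (one_mul y)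

/-- multiplication by `x` followed by the projection -/
noncomputable def mp (i : ℕ) {e e' : ℕ} (h : e ≤ e') (x : RR K c) (l l' : S.Coc) :
    S.Ti p i e' l →ₗ[RR K c] S.Ti p i e l' :=
  mul _ _ l l' x fun _ hy =>
    Ideal.mul_mem_left _ _ (IN_mono le_rfl (Nat.pow_le_pow_right hp.out.pos h) hy)

@[simp] theorem mp_cl (i : ℕ) {e e' : ℕ} (h : e ≤ e') (x : RR K c) (l l' : S.Coc) (y : RR K c) :
    S.mp p i h x l l' (cl _ l y) = cl _ l' (x * y) := rfl

/-- **The transition maps are the transposes of the projections.** -/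
theorem pair_tr {e e' : ℕ} (h : e ≤ e') (x : RR K c) (l₁ l₂ m₁ m₂ : S.Coc) (a : S.T p e' m₂)
    (a' : S.T p e l₁) : S.pair p e' m₂ l₂ a (S.tr c h x l₁ l₂ a') =
      S.pair p e m₁ l₁ (S.mp p c h x m₂ m₁ a) a' := by
  obtain ⟨y, rfl⟩ := cl_surj _ _ a
  obtain ⟨z, rfl⟩ := cl_surj _ _ a'
  rw [tr_cl, mp_cl, pair_cl, pair_cl,
    ← coeff_UU_mul (pp_pos e).ne' (Nat.pow_le_pow_right hp.out.pos h)]
  congr 1
  ring

theorem top_φ (e : ℕ) (g : G) (x : RR K c) :
    coeff (ex fun _ => p ^ e - 1) (S.φ g x * val S.J g) =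
      constantCoeff (val S.J g) ^ p ^ e * coeff (ex fun _ => p ^ e - 1) x := by
  rcases Nat.eq_zero_or_pos e with rfl | he
  · have : (ex fun _ : Fin c => p ^ 0 - 1) = 0 := by
      ext i
      simp
    rw [this, coeff_zero_eq_constantCoeff_apply, coeff_zero_eq_constantCoeff_apply, map_mul, cc_φ,
      pow_zero, pow_one, mul_comm]
  let I := IN K c c (p ^ e)
  have hd : ∀ j, ∀ y, Ideal.Quotient.mkₐ K I y = 0 → Ideal.Quotient.mkₐ K I (pderiv K j y) = 0 := by
    intro j y hy
    rw [Ideal.Quotient.mkₐ_eq_mk, Ideal.Quotient.eq_zero_iff_mem] at hy ⊢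
    induction hy using Submodule.span_induction with
    | mem y hy =>
      obtain ⟨i, -, rfl⟩ := hy
      obtain ⟨e', rfl⟩ := Nat.exists_eq_add_of_le' he
      simp only [Derivation.leibniz_pow, nsmul_eq_mul, pow_succ, Nat.cast_mul, p_RR p, mul_zero,
        zero_mul, Ideal.zero_mem]
    | zero => simp
    | add y z _ _ hy hz => rw [map_add]; exact I.add_mem hy hz
    | smul a y h hy =>
      rw [smul_eq_mul, Derivation.leibniz, smul_eq_mul, smul_eq_mul]
      exact I.add_mem (I.mul_mem_left _ hy) (I.mul_mem_right _ h)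
  let D : Fin c → Derivation K (RR K c ⧸ I) (RR K c ⧸ I) := fun j =>
    Derivation.liftOfSurjective (Ideal.Quotient.mkₐ_surjective K I) (hd j)
  have hD : ∀ j y, D j (Ideal.Quotient.mk I y) = Ideal.Quotient.mk I (pderiv K j y) := fun j y =>
    Derivation.liftOfSurjective_apply (Ideal.Quotient.mkₐ_surjective K I) (hd j) y
  let ψ : G → (RR K c ⧸ I) →ₐ[K] (RR K c ⧸ I) := fun g =>
    Ideal.quotientMapₐ I (S.φ g) fun y hy => (S.II p c e).2 g y hy
  have hψ : ∀ g y, ψ g (Ideal.Quotient.mk I y) = Ideal.Quotient.mk I (S.φ g y) := fun _ _ => rfl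
  have hj : jac D (fun i => ψ g (Ideal.Quotient.mk I (X i))) = Ideal.Quotient.mk I (val S.J g) := by
    rw [val_J, RingHom.map_det, jac]
    congr 1
    ext i j
    exact hD j _
  have h := (tr_top (K := K) (c := c) (pp_pos (p := p) e).ne').res (CharP.cast_eq_zero K p) D
    (fun j l => by
      rw [hD, pderiv_X, Pi.single_apply]
      by_cases e : j = l
      · rw [if_pos e, if_pos e.symm, map_one]
      · rw [if_neg e, if_neg (Ne.symm e), map_zero]) (ψ g)
    (Function.LeftInverse.injective (g := ψ g⁻¹) fun y => by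
      obtain ⟨y, rfl⟩ := Ideal.Quotient.mk_surjective y
      rw [hψ, hψ, ← φ_mul, inv_mul_cancel, φ_one])
    (constantCoeff (val S.J g) ^ p ^ e) (by
      rw [hj, ← map_pow, map_pow (algebraMap K _)]
      exact Ideal.Quotient.eq.2 (sub_pow_mem p e (constantCoeff_C _).symm))
    (Ideal.Quotient.mk I x)
  rw [hj] at h
  exact h

/-- **The pairing is invariant.** -/
theorem pair_inv (e : ℕ) {l l' : S.Coc} (h : l * l' * S.B c ^ p ^ e = S.J) (g : G)
    (a : S.T p e l) (a' : S.T p e l') : S.pair p e l l' (g • a) (g • a') = S.pair p e l l' a a' := by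
  obtain ⟨x, rfl⟩ := cl_surj _ _ a
  obtain ⟨y, rfl⟩ := cl_surj _ _ a'
  rw [g_cl, g_cl, pair_cl, pair_cl]
  have h0 : constantCoeff (val S.J g) ^ p ^ e ≠ 0 :=
    ((S.isUnit_val S.J g).map constantCoeff).ne_zero |> pow_ne_zero _
  refine mul_left_cancel₀ h0 ?_
  rw [← S.top_φ p e g (x * y), ← smul_eq_mul (constantCoeff (val S.J g) ^ p ^ e), ← map_smul,
    ← sub_eq_zero, ← map_sub]
  refine (mem_IN (i := c) (N := p ^ e)).1 ?_ (ex fun _ => p ^ e - 1)
    fun _ _ => Nat.sub_one_lt (pp_pos (p := p) e).ne'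
  have h1 := sub_pow_mem p e ((constantCoeff_C (σ := Fin c) _).trans (S.cc_J g))
  have h2 : val S.J g = val l g * val l' g * val (S.B c) g ^ p ^ e := by
    rw [← h, val_mul, val_mul, val_pow]
  rw [smul_eq_C_mul, map_pow, map_mul]
  convert Ideal.mul_mem_left _ (val l g * S.φ g x * (val l' g * S.φ g y)) h1 using 1
  conv_lhs => enter [2, 2]; rw [h2]
  ring

theorem UU_φ (i : ℕ) {e e' : ℕ} (h : e ≤ e') (g : G) :
    S.φ g (UU K c i ^ (p ^ e' - p ^ e)) - (val (S.B i) g * UU K c i) ^ (p ^ e' - p ^ e) ∈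
      IN K c i (p ^ e') := by
  obtain ⟨m, hm⟩ : ∃ m, p ^ e' = p ^ e * (m + 1) := by
    obtain ⟨d, rfl⟩ := Nat.exists_eq_add_of_le h
    exact ⟨p ^ d - 1, by rw [Nat.sub_add_cancel (pp_pos d), pow_add]⟩
  have hm' : p ^ e' - p ^ e = p ^ e * m := by rw [hm, mul_add, mul_one, Nat.add_sub_cancel]
  induction i with
  | zero => simp [UU, B, lo_zero]
  | succ i ih =>
    by_cases hi : i < c
    swap
    · have e1 : lo c (i + 1) = lo c i := by
        ext j
        rw [mem_lo, mem_lo]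
        omega
      have e2 : UU K c (i + 1) = UU K c i := by rw [UU, e1, UU]
      have e3 : S.B (i + 1) = S.B i := by rw [B, e1, B]
      rw [e2, e3]
      exact IN_mono (Nat.le_succ i) le_rfl ih
    let j : Fin c := ⟨i, hi⟩
    have hj : j ∉ lo c j := by simp [mem_lo]
    have e2 : UU K c (i + 1) = X j * UU K c i := by
      rw [UU, UU, ← Finset.prod_insert hj, ← lo_succ j]
    have e3 : S.B (i + 1) = S.bc j * S.B i := by
      rw [B, B, ← Finset.prod_insert hj, ← lo_succ j]
    obtain ⟨z, hz⟩ := sub_dvd_pow_sub_pow (S.φ g (X j ^ p ^ e)) ((val (S.bc j) g * X j) ^ p ^ e) m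
    have h1 := UU_mul_mem i (Nat.pow_le_pow_right hp.out.pos h) _ (S.tri_pow p e g j)
    refine IN_mono (Nat.le_succ i) le_rfl ?_
    rw [← map_pow, ← pow_mul, ← pow_mul, ← hm'] at hz
    convert Ideal.add_mem _ (Ideal.mul_mem_left _ (S.φ g (X j ^ (p ^ e' - p ^ e))) ih)
      (Ideal.mul_mem_left _ (val (S.B i) g ^ (p ^ e' - p ^ e) * z) h1) using 1
    rw [e2, e3, val_mul, mul_pow (X j), map_mul, mul_pow, mul_pow, mul_pow, mul_pow]
    rw [mul_pow] at hz
    linear_combination (val (S.B i) g ^ (p ^ e' - p ^ e) * UU K c i ^ (p ^ e' - p ^ e)) * hz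

variable {p}

/-- **The transition maps are equivariant.** -/
theorem tr_equi (i : ℕ) {e e' : ℕ} (h : e ≤ e') {x : RR K c} {l l' : S.Coc}
    (hx : ∀ g, x * val l g - val l' g * S.φ g x ∈ IN K c i (p ^ e)) (g : G) (a : S.Hi p i e l) :
    S.tr i h x _ (l' * (S.B i ^ p ^ e')⁻¹) (g • a) = g • S.tr i h x _ _ a := by
  refine mul_equi _ (fun g => ?_) g a
  have hN := Nat.pow_le_pow_right hp.out.pos h
  have h1 := UU_mul_mem i hN _ (hx g)
  have h2 := S.UU_φ p i h g
  have h3 : val (S.B i ^ p ^ e')⁻¹ g * val (S.B i) g ^ (p ^ e' - p ^ e) = val (S.B i ^ p ^ e)⁻¹ g := by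
    rw [← val_pow, ← val_mul]
    congr 1
    rw [pow_sub _ hN, inv_mul_cancel_left]
  change _ ∈ IN K c i (p ^ e')
  convert Ideal.sub_mem _ (Ideal.mul_mem_left _ (val (S.B i ^ p ^ e)⁻¹ g) h1)
    (Ideal.mul_mem_left _ (val l' g * val (S.B i ^ p ^ e')⁻¹ g * S.φ g x) h2) using 1
  rw [val_mul, val_mul, map_mul, mul_pow]
  linear_combination (-(val l' g * S.φ g x * UU K c i ^ (p ^ e' - p ^ e))) * h3

theorem mp_equi (i : ℕ) {e e' : ℕ} (h : e ≤ e') {x : RR K c} {l l' : S.Coc}
    (hx : ∀ g, x * val l g - val l' g * S.φ g x ∈ IN K c i (p ^ e)) (g : G) (a : S.Ti p i e' l) :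
    S.mp p i h x l l' (g • a) = g • S.mp p i h x l l' a := mul_equi _ hx g a

theorem pr_equi (i : ℕ) {e e' : ℕ} (h : e ≤ e') (l : S.Coc) (g : G) (a : S.Ti p i e' l) :
    S.pr i h l (g • a) = g • S.pr i h l a := mul_equi _ (fun g => by simp) g a

/-- powers of a semi-invariant element -/
theorem semi_pow {v : RR K c} {β : S.Coc} (hv : ∀ g, S.φ g v = val β g * v) (A : ℕ) (l : S.Coc)
    (g : G) : v ^ A * val l g - val (l * (β ^ A)⁻¹) g * S.φ g (v ^ A) = 0 := by
  have h := S.val_mul_inv (β ^ A) g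
  rw [val_pow] at h
  rw [map_pow, hv, mul_pow, val_mul]
  linear_combination (-(val l g * v ^ A)) * h

end SA

end P261.Ser
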