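import Vale.Agent.P261Z.Ser.Last

/-!
# P261, last step of block P: the modules `Ti p j e l [1 / u j]`
-/

open MvPowerSeries

namespace P261.Ser

variable {G K : Type} [TopologicalSpace G] [Group G] [Field K] {c : ℕ}

namespace SA

variable (S : SA G K c) (p : ℕ) [hp : Fact p.Prime] [CharP K p] (j : Fin c) (e : ℕ)

/-- the ring `R / (u i ^ p ^ e, i < j) [1 / u j]` -/
def Aw (K : Type) [Field K] {c : ℕ} (j : Fin c) (N : ℕ) : Type :=
  Localization.Away (Ideal.Quotient.mk (IN K c j N) (X j))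

noncomputable instance (N : ℕ) : CommRing (Aw K j N) :=
  inferInstanceAs (CommRing (Localization.Away (Ideal.Quotient.mk (IN K c j N) (X j))))

noncomputable instance (N : ℕ) : Algebra (RR K c ⧸ IN K c j N) (Aw K j N) :=
  inferInstanceAs (Algebra _ (Localization.Away (Ideal.Quotient.mk (IN K c j N) (X j))))

instance (N : ℕ) : IsLocalization.Away (Ideal.Quotient.mk (IN K c j N) (X j)) (Aw K j N) :=
  inferInstanceAs (IsLocalization.Away _
    (Localization.Away (Ideal.Quotient.mk (IN K c j N) (X j))))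

/-- the structure map -/
noncomputable def aw (N : ℕ) : RR K c →+* Aw K j N :=
  (algebraMap (RR K c ⧸ IN K c j N) (Aw K j N)).comp (Ideal.Quotient.mk _)

noncomputable instance (N : ℕ) : Algebra (RR K c) (Aw K j N) := (aw j N).toAlgebra

theorem smul_aw (N : ℕ) (r : RR K c) (x : Aw K j N) : r • x = aw j N r * x := rfl

theorem aw_eq_zero {N : ℕ} {r : RR K c} : aw j N r = 0 ↔ r ∈ IN K c j N := by
  rw [aw, RingHom.comp_apply, IsLocalization.map_eq_zero_iff
    (Submonoid.powers (Ideal.Quotient.mk (IN K c j N) (X j)))]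
  constructor
  · rintro ⟨⟨_, m, rfl⟩, hm⟩
    change Ideal.Quotient.mk _ (X j) ^ m * _ = 0 at hm
    rw [← map_pow, ← map_mul, Ideal.Quotient.eq_zero_iff_mem] at hm
    exact mem_IN_of_mul le_rfl hm
  · intro h
    exact ⟨1, by rw [Ideal.Quotient.eq_zero_iff_mem.2 h, mul_zero]⟩

theorem aw_eq {N : ℕ} {r r' : RR K c} : aw j N r = aw j N r' ↔ r - r' ∈ IN K c j N := by
  rw [← aw_eq_zero, map_sub, sub_eq_zero]

theorem isUnit_aw (N : ℕ) : IsUnit (aw j N (X j : RR K c)) :=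
  IsLocalization.Away.algebraMap_isUnit (S := Aw K j N) (Ideal.Quotient.mk (IN K c j N) (X j))

/-- the inverse of `u j` -/
noncomputable def iw (K : Type) [Field K] {c : ℕ} (j : Fin c) (N : ℕ) : Aw K j N :=
  ((isUnit_aw (K := K) j N).unit⁻¹ : (Aw K j N)ˣ)

theorem aw_iw (N : ℕ) : aw j N (X j : RR K c) * iw K j N = 1 := (isUnit_aw j N).mul_val_inv

theorem aw_iw_pow (N m : ℕ) : aw j N ((X j : RR K c) ^ m) * iw K j N ^ m = 1 := by
  rw [map_pow, ← mul_pow, aw_iw, one_pow]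

theorem aw_surj {N : ℕ} (x : Aw K j N) : ∃ m, ∀ m', m ≤ m' → ∃ r, x = aw j N r * iw K j N ^ m' := by
  obtain ⟨m, a, h⟩ := IsLocalization.Away.surj (Ideal.Quotient.mk (IN K c j N) (X j)) x
  obtain ⟨r, rfl⟩ := Ideal.Quotient.mk_surjective a
  refine ⟨m, fun m' hm => ⟨r * X j ^ (m' - m), ?_⟩⟩
  obtain ⟨d, rfl⟩ := Nat.exists_eq_add_of_le hm
  have h1 : x * aw j N (X j) ^ m = aw j N r := h
  have h2 := aw_iw_pow (K := K) j N (m + d)
  rw [Nat.add_sub_cancel_left, map_mul, ← h1, map_pow]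
  rw [map_pow] at h2
  linear_combination (-x) * h2

theorem aw_φ_X (g : G) : aw j (p ^ e) (S.φ g (X j ^ p ^ e)) =
    aw j (p ^ e) ((val (S.bc j) g * X j) ^ p ^ e) := (aw_eq j).2 (S.tri_pow p e g j)

theorem isUnit_aw_φ (g : G) : IsUnit (aw j (p ^ e) (S.φ g (X j))) := by
  refine (isUnit_pow_iff (pp_pos (p := p) e).ne').1 ?_
  rw [← map_pow, ← map_pow, aw_φ_X, map_pow, map_mul]
  exact (((S.isUnit_val _ g).map _).mul (isUnit_aw j _)).pow _

/-- the action on the localised ring -/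
noncomputable def ψ (g : G) : Aw K j (p ^ e) →+* Aw K j (p ^ e) :=
  IsLocalization.Away.lift (Ideal.Quotient.mk (IN K c j (p ^ e)) (X j))
    (g := Ideal.Quotient.lift _ ((aw j (p ^ e)).comp (S.φ g : RR K c →+* RR K c))
      fun x hx => (aw_eq_zero j).2 ((S.II p j e).2 g x hx)) (S.isUnit_aw_φ p j e g)

theorem ψ_aw (g : G) (r : RR K c) : S.ψ p j e g (aw j _ r) = aw j _ (S.φ g r) :=
  IsLocalization.Away.lift_eq (Ideal.Quotient.mk (IN K c j (p ^ e)) (X j)) _ _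

omit [TopologicalSpace G] [Group G] in
theorem aw_ext {N : ℕ} {T : Type*} [CommRing T] {f f' : Aw K j N →+* T}
    (h : ∀ r, f (aw j N r) = f' (aw j N r)) : f = f' :=
  IsLocalization.ringHom_ext (Submonoid.powers (Ideal.Quotient.mk (IN K c j N) (X j)))
    (Ideal.Quotient.ringHom_ext (RingHom.ext h))

theorem ψ_one (x : Aw K j (p ^ e)) : S.ψ p j e 1 x = x :=
  RingHom.congr_fun (aw_ext j (f' := RingHom.id _) fun r => by rw [ψ_aw, φ_one]; rfl) x

theorem ψ_mul (g g' : G) (x : Aw K j (p ^ e)) :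
    S.ψ p j e (g * g') x = S.ψ p j e g (S.ψ p j e g' x) :=
  RingHom.congr_fun (aw_ext j (f' := (S.ψ p j e g).comp (S.ψ p j e g')) fun r => by
    rw [RingHom.comp_apply, ψ_aw, ψ_aw, ψ_aw, φ_mul]) x

theorem ψ_iw (m : ℕ) (g : G) : S.ψ p j e g (iw K j _ ^ (p ^ e * m)) =
    aw j _ (val (S.bc j ^ (p ^ e * m))⁻¹ g) * iw K j _ ^ (p ^ e * m) := by
  have h1 := congrArg (S.ψ p j e g) (aw_iw_pow (K := K) j (p ^ e) (p ^ e * m))
  have h2 := aw_iw_pow (K := K) j (p ^ e) (p ^ e * m)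
  have h3 := congrArg (aw j (p ^ e)) (S.val_mul_inv (S.bc j ^ (p ^ e * m)) g)
  rw [map_mul, map_one, ψ_aw, pow_mul (X j), map_pow (S.φ g), map_pow (aw j _), aw_φ_X,
    ← map_pow (aw j _), ← pow_mul, mul_pow, map_mul] at h1
  rw [map_mul, map_one, val_pow] at h3
  generalize S.ψ p j e g (iw K j _ ^ (p ^ e * m)) = y at h1 ⊢
  linear_combination (aw j _ (val (S.bc j ^ (p ^ e * m))⁻¹ g) * iw K j _ ^ (p ^ e * m)) * h1 -
    y * h3 - (aw j _ (val (S.bc j) g ^ (p ^ e * m)) * aw j _ (val (S.bc j ^ (p ^ e * m))⁻¹ g) * y) *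
      h2

/-- the twisted action on the localised ring -/
noncomputable def ρw (l : S.Coc) : G →* AddMonoid.End (Aw K j (p ^ e)) where
  toFun g := (AddMonoidHom.mulLeft (aw j _ (val l g))).comp (S.ψ p j e g).toAddMonoidHom
  map_one' := AddMonoidHom.ext fun x => by
    change aw j _ (val l 1) * S.ψ p j e 1 x = x
    rw [val_at_one, map_one, one_mul, ψ_one]
  map_mul' g g' := AddMonoidHom.ext fun x => by
    change aw j _ (val l (g * g')) * S.ψ p j e (g * g') x =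
      aw j _ (val l g) * S.ψ p j e g (aw j _ (val l g') * S.ψ p j e g' x)
    rw [val_coc, ψ_mul, map_mul, map_mul, ψ_aw, mul_assoc]

theorem ρw_apply (l : S.Coc) (g : G) (x : Aw K j (p ^ e)) :
    S.ρw p j e l g x = aw j _ (val l g) * S.ψ p j e g x := rfl

/-- division by `u j ^ (p ^ e * m)` -/
noncomputable def θ (l : S.Coc) (m : ℕ) : S.Ti p j e l →ₗ[RR K c] Aw K j (p ^ e) :=
  Submodule.liftQ (S.II p j e).1 (LinearMap.toSpanSingleton _ _ (iw K j _ ^ m)) fun x hx => by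
    change aw j _ x * _ = 0
    rw [(aw_eq_zero j).2 hx, zero_mul]

theorem θ_cl (l : S.Coc) (m : ℕ) (r : RR K c) :
    S.θ p j e l m (cl _ l r) = aw j _ r * iw K j _ ^ m := rfl

theorem θ_inj (l : S.Coc) (m : ℕ) : Function.Injective (S.θ p j e l m) := by
  rw [injective_iff_map_eq_zero]
  intro a ha
  obtain ⟨r, rfl⟩ := cl_surj _ _ a
  rw [θ_cl] at ha
  refine (cl_eq_zero _ _).2 ((aw_eq_zero j).1 ?_)
  linear_combination aw j _ ((X j : RR K c) ^ m) * ha - aw j _ r * aw_iw_pow (K := K) j (p ^ e) m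

theorem θ_equi (l : S.Coc) (m : ℕ) (g : G) (a : S.Ti p j e (l * (S.bc j ^ (p ^ e * m))⁻¹)) :
    S.θ p j e _ (p ^ e * m) (g • a) = S.ρw p j e l g (S.θ p j e _ (p ^ e * m) a) := by
  obtain ⟨r, rfl⟩ := cl_surj _ _ a
  rw [g_cl, θ_cl, θ_cl, ρw_apply, map_mul (S.ψ p j e g), ψ_aw, ψ_iw, val_mul, map_mul, map_mul]
  ring

end SA

end P261.Ser
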