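import Vale.Agent.P261Z.Ser.Soc
import Vale.Agent.P261Z.T1.Defs
import Vale.Agent.P261Z.Ev

/-!
# P261, block D3: twisted quotients of `R = K[[u]]` and the statement (BV)

* `SA G K c`: an action `φ` of `G` on `R`, with `φ g (u i) = b i g * u i` modulo `u j`, `j < i`;
* `S.Coc`: the group of continuous cocycles `G → Rˣ`;
* `S.Tw I l`: the module `R / I` with `g • f = l g * φ g f`;
* `S.II p i e = (u j ^ p ^ e, j < i)`, `S.T p e l = S.Tw (II p c e) l`;
* `S.BV p v β l`: a power of `v` kills `H^s(G; H^c_m(L_l))`, where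
  `H^c_m(L_l) = colim_e T p e (l * B ^ (- p ^ e))`.
-/

open MvPowerSeries

namespace P261.Ser

open Vale.Agent.P251.C Vale.Agent.P261Z.T1 Vale.Agent.P261Z.Ev

/-- the ring `K[[u_0, …, u_{c-1}]]` -/
abbrev RR (K : Type) (c : ℕ) : Type := MvPowerSeries (Fin c) K

/-- the indices `j < i` -/
def lo (c i : ℕ) : Finset (Fin c) := Finset.univ.filter fun j : Fin c => j.val < i

theorem mem_lo {c i : ℕ} {j : Fin c} : j ∈ lo c i ↔ j.val < i := by simp [lo]

theorem lo_self (c : ℕ) : lo c c = Finset.univ := by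
  ext j
  simp [mem_lo]

theorem lo_zero (c : ℕ) : lo c 0 = ∅ := by
  ext j
  simp [mem_lo]

theorem lo_succ {c : ℕ} (i : Fin c) : lo c (i + 1) = insert i (lo c i) := by
  ext j
  rw [Finset.mem_insert, mem_lo, mem_lo, Fin.ext_iff]
  omega

variable {G K : Type} [TopologicalSpace G] [Field K] {c : ℕ}

/-- locally constant modulo every power of the maximal ideal -/
def LCm {Y : Type*} [TopologicalSpace Y] (f : Y → RR K c) : Prop :=
  ∀ N, IsLocallyConstant fun y => Ideal.Quotient.mk (IX (Fin c) K ^ N) (f y)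

section LCm

variable {Y : Type*} [TopologicalSpace Y] {f f' : Y → RR K c}

theorem LCm.const (r : RR K c) : LCm fun _ : Y => r := fun _ => IsLocallyConstant.const _

theorem LCm.mul (h : LCm f) (h' : LCm f') : LCm fun y => f y * f' y := fun N => by
  simp only [map_mul]
  exact (h N).mul (h' N)

theorem LCm.add (h : LCm f) (h' : LCm f') : LCm fun y => f y + f' y := fun N => by
  simp only [map_add]
  exact (h N).add (h' N)

theorem LCm.inv {l : Y → (RR K c)ˣ} (h : LCm fun y => (l y : RR K c)) :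
    LCm fun y => (((l y)⁻¹ : (RR K c)ˣ) : RR K c) := fun N => by
  have : (fun y => Ideal.Quotient.mk (IX (Fin c) K ^ N) (((l y)⁻¹ : (RR K c)ˣ) : RR K c)) =
      Ring.inverse ∘ fun y => Ideal.Quotient.mk (IX (Fin c) K ^ N) (l y : RR K c) := by
    funext y
    exact (Ring.inverse_unit (Units.map (Ideal.Quotient.mk (IX (Fin c) K ^ N)).toMonoidHom (l y))).symm
  rw [this]
  exact (h N).comp _

theorem LCm.quot (h : LCm f) {I : Ideal (RR K c)} {N : ℕ} (hI : IX (Fin c) K ^ N ≤ I) :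
    IsLocallyConstant fun y => Ideal.Quotient.mk I (f y) :=
  (h N).comp (Ideal.Quotient.factor hI)

end LCm

variable [Group G]

/-- an action on `R` which is triangular on the variables -/
structure SA (G K : Type) [Group G] [TopologicalSpace G] [Field K] (c : ℕ) where
  /-- the action -/
  φ : G →* (RR K c →ₐ[K] RR K c)
  /-- the factor of `u i` -/
  b : Fin c → G → (RR K c)ˣ
  b_mul : ∀ i g g', (b i (g * g') : RR K c) = b i g * φ g (b i g')
  tri : ∀ g i, φ g (X i) - (b i g : RR K c) * X i ∈ Ideal.span ((X : Fin c → RR K c) '' {j | j < i})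
  φ_lc : ∀ r, LCm fun g => φ g r
  b_lc : ∀ i, LCm fun g => (b i g : RR K c)

namespace SA

variable (S : SA G K c)

theorem φ_mul (g g' : G) (r : RR K c) : S.φ (g * g') r = S.φ g (S.φ g' r) := by
  rw [map_mul]; rfl

@[simp] theorem φ_one (r : RR K c) : S.φ 1 r = r := by
  rw [map_one]; rfl

/-- continuous cocycles -/
def Coc : Subgroup (G → (RR K c)ˣ) where
  carrier := {l | (∀ g g', (l (g * g') : RR K c) = l g * S.φ g (l g')) ∧
    LCm fun g => (l g : RR K c)}
  one_mem' := ⟨fun g g' => by simp, LCm.const _⟩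
  mul_mem' := fun {l l'} h h' => ⟨fun g g' => by
    simp only [Pi.mul_apply, Units.val_mul, h.1, h'.1, map_mul]
    ring, h.2.mul h'.2⟩
  inv_mem' := fun {l} h => ⟨fun g g' => by
    simp only [Pi.inv_apply]
    refine Units.inv_eq_of_mul_eq_one_right ?_
    rw [h.1, mul_mul_mul_comm, ← map_mul, Units.mul_inv, Units.mul_inv, map_one, mul_one],
    h.2.inv⟩

variable {S} in
/-- the value of a cocycle -/
def val (l : S.Coc) (g : G) : RR K c := (l.1 g : RR K c)

@[simp] theorem val_mul (l l' : S.Coc) (g : G) : val (l * l') g = val l g * val l' g := rfl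
@[simp] theorem val_one (g : G) : val (1 : S.Coc) g = 1 := rfl
@[simp] theorem val_pow (l : S.Coc) (n : ℕ) (g : G) : val (l ^ n) g = val l g ^ n :=
  Units.val_pow_eq_pow_val _ _
theorem val_mul_inv (l : S.Coc) (g : G) : val l g * val l⁻¹ g = 1 := Units.mul_inv _
theorem val_coc (l : S.Coc) (g g' : G) : val l (g * g') = val l g * S.φ g (val l g') := l.2.1 g g'
theorem val_lc (l : S.Coc) : LCm (val l) := l.2.2
theorem isUnit_val (l : S.Coc) (g : G) : IsUnit (val l g) := Units.isUnit _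

@[simp] theorem val_at_one (l : S.Coc) : val l 1 = 1 := by
  have h := S.val_coc l 1 1
  rw [mul_one, φ_one] at h
  exact ((S.isUnit_val l 1).mul_right_inj.1 ((mul_one _).trans h)).symm

/-- the cocycle of `u i` -/
def bc (i : Fin c) : S.Coc := ⟨S.b i, S.b_mul i, S.b_lc i⟩

/-- the cocycle of `∏ j < i, u j` -/
noncomputable def B (i : ℕ) : S.Coc := ∏ j ∈ lo c i, S.bc j

/-- stable ideals -/
def SI : Type := {I : Ideal (RR K c) // ∀ g, ∀ x ∈ I, S.φ g x ∈ I}

/-- the module `R / I` with the action twisted by `l` -/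
def Tw (I : S.SI) (_l : S.Coc) : Type := RR K c ⧸ I.1

variable {S} (I I' : S.SI) (l l' : S.Coc)

noncomputable instance : AddCommGroup (S.Tw I l) := inferInstanceAs (AddCommGroup (RR K c ⧸ I.1))
noncomputable instance : Module (RR K c) (S.Tw I l) :=
  inferInstanceAs (Module (RR K c) (RR K c ⧸ I.1))
noncomputable instance : Module K (S.Tw I l) := inferInstanceAs (Module K (RR K c ⧸ I.1))
instance : IsScalarTower K (RR K c) (S.Tw I l) :=
  inferInstanceAs (IsScalarTower K (RR K c) (RR K c ⧸ I.1))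

/-- the projection -/
noncomputable def cl : RR K c →ₗ[RR K c] S.Tw I l := Submodule.mkQ I.1

theorem cl_surj : Function.Surjective (cl I l) := Submodule.mkQ_surjective _

theorem cl_eq_zero {x : RR K c} : cl I l x = 0 ↔ x ∈ I.1 := Submodule.Quotient.mk_eq_zero _

theorem cl_eq {x y : RR K c} : cl I l x = cl I l y ↔ x - y ∈ I.1 := Submodule.Quotient.eq _

theorem smul_cl (r x : RR K c) : r • cl I l x = cl I l (r * x) := (map_smul (cl I l) r x).symm

/-- the action of one element -/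
noncomputable def act (g : G) : S.Tw I l →+ S.Tw I l :=
  QuotientAddGroup.map I.1.toAddSubgroup I.1.toAddSubgroup
    ((AddMonoidHom.mulLeft (val l g)).comp (S.φ g : RR K c →+* RR K c).toAddMonoidHom)
    fun x hx => I.1.mul_mem_left _ (I.2 g x hx)

noncomputable instance : SMul G (S.Tw I l) := ⟨fun g => act I l g⟩

theorem g_cl (g : G) (x : RR K c) : g • cl I l x = cl I l (val l g * S.φ g x) := rfl

noncomputable instance : DistribMulAction G (S.Tw I l) where
  one_smul a := by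
    obtain ⟨x, rfl⟩ := cl_surj I l a
    rw [g_cl, val_at_one, φ_one, one_mul]
  mul_smul g g' a := by
    obtain ⟨x, rfl⟩ := cl_surj I l a
    rw [g_cl, g_cl, g_cl, val_coc, φ_mul, map_mul (S.φ g), mul_assoc]
  smul_zero g := (act I l g).map_zero
  smul_add g := (act I l g).map_add

theorem g_smul (g : G) (r : RR K c) (a : S.Tw I l) : g • r • a = S.φ g r • g • a := by
  obtain ⟨x, rfl⟩ := cl_surj I l a
  rw [smul_cl, g_cl, g_cl, smul_cl, map_mul (S.φ g), mul_left_comm]

instance : SMulCommClass G K (S.Tw I l) where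
  smul_comm g a x := by
    rw [← algebraMap_smul (RR K c) a x, g_smul, AlgHom.commutes, algebraMap_smul]

theorem discMod {N : ℕ} (h : IX (Fin c) K ^ N ≤ I.1) : DiscMod G (S.Tw I l) where
  isOpen_stab a := by
    obtain ⟨x, rfl⟩ := cl_surj I l a
    exact (((S.val_lc l).mul (S.φ_lc x)).quot h).isOpen_fiber (cl I l x)

/-- multiplication by `x` -/
noncomputable def mul (x : RR K c) (hx : ∀ y ∈ I.1, x * y ∈ I'.1) :
    S.Tw I l →ₗ[RR K c] S.Tw I' l' :=
  Submodule.mapQ I.1 I'.1 (LinearMap.mulLeft (RR K c) x) hx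

variable {I I' l l'}

@[simp] theorem mul_cl (x : RR K c) (hx : ∀ y ∈ I.1, x * y ∈ I'.1) (y : RR K c) :
    mul I I' l l' x hx (cl I l y) = cl I' l' (x * y) := rfl

theorem mul_equi {x : RR K c} (hx : ∀ y ∈ I.1, x * y ∈ I'.1)
    (h : ∀ g, x * val l g - val l' g * S.φ g x ∈ I'.1) (g : G) (a : S.Tw I l) :
    mul I I' l l' x hx (g • a) = g • mul I I' l l' x hx a := by
  obtain ⟨y, rfl⟩ := cl_surj I l a
  rw [g_cl, mul_cl, mul_cl, g_cl, cl_eq, map_mul, ← mul_assoc, ← mul_assoc, ← sub_mul]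
  exact I'.1.mul_mem_right _ (h g)

end SA

/-- the ideal `(u j ^ N, j < i)` -/
noncomputable def IN (K : Type) [Field K] (c i N : ℕ) : Ideal (RR K c) :=
  Ideal.span ((fun j : Fin c => (X j : RR K c) ^ N) '' {j : Fin c | j.val < i})

/-- the product `∏ j < i, u j` -/
noncomputable def UU (K : Type) [Field K] (c i : ℕ) : RR K c := ∏ j ∈ lo c i, X j

theorem X_pow_mem {i : ℕ} {j : Fin c} (hj : (j : ℕ) < i) (N : ℕ) :
    (X j : RR K c) ^ N ∈ IN K c i N := Ideal.subset_span ⟨j, hj, rfl⟩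

theorem IN_mono {i i' N N' : ℕ} (hi : i ≤ i') (hN : N' ≤ N) : IN K c i N ≤ IN K c i' N' := by
  refine Ideal.span_le.2 ?_
  rintro _ ⟨j, hj, rfl⟩
  obtain ⟨d, rfl⟩ := Nat.exists_eq_add_of_le hN
  change X j ^ (N' + d) ∈ IN K c i' N'
  rw [pow_add]
  exact Ideal.mul_mem_right _ _ (X_pow_mem (lt_of_lt_of_le hj hi) _)

theorem UU_mul_mem (i : ℕ) {N N' : ℕ} (h : N ≤ N') :
    ∀ y ∈ IN K c i N, UU K c i ^ (N' - N) * y ∈ IN K c i N' := by
  intro y hy
  have h1 : IN K c i N ≤ (IN K c i N').colon {UU K c i ^ (N' - N)} := by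
    refine Ideal.span_le.2 ?_
    rintro _ ⟨j, hj, rfl⟩
    obtain ⟨z, hz⟩ : (X j : RR K c) ∣ UU K c i := Finset.dvd_prod_of_mem _ (mem_lo.2 hj)
    rw [SetLike.mem_coe, Submodule.mem_colon_singleton, smul_eq_mul, hz, mul_pow, ← mul_assoc,
      ← pow_add, Nat.add_sub_cancel' h]
    exact Ideal.mul_mem_right _ _ (X_pow_mem hj _)
  have h2 := h1 hy
  rwa [Submodule.mem_colon_singleton, smul_eq_mul, mul_comm] at h2

variable (p : ℕ) [hp : Fact p.Prime] [CharP K p]

omit hp in
theorem p_RR : (p : RR K c) = 0 :=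
  natCast_zero_of (algebraMap K (RR K c)) (CharP.cast_eq_zero K p)

namespace SA

variable (S : SA G K c)

theorem tri_pow (e : ℕ) (g : G) (i : Fin c) :
    S.φ g (X i ^ p ^ e) - (val (S.bc i) g * X i) ^ p ^ e ∈ IN K c i (p ^ e) := by
  have h := Ideal.mem_map_of_mem (frp (p_RR p) e) (S.tri g i)
  rw [map_sub, Ideal.map_span, ← Set.image_comp] at h
  rw [map_pow]
  exact h

/-- the stable ideal `(u j ^ p ^ e, j < i)` -/
noncomputable def II (i e : ℕ) : S.SI := ⟨IN K c i (p ^ e), fun g x hx => by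
  refine (Ideal.span_le (I := (IN K c i (p ^ e)).comap (S.φ g))).2 ?_ hx
  rintro _ ⟨j, hj, rfl⟩
  have h1 := IN_mono (le_of_lt hj) le_rfl (S.tri_pow p e g j)
  have h2 : (val (S.bc j) g * X j) ^ p ^ e ∈ IN K c i (p ^ e) := by
    rw [mul_pow]
    exact Ideal.mul_mem_left _ _ (X_pow_mem hj _)
  have h3 := Ideal.add_mem _ h1 h2
  rwa [sub_add_cancel] at h3⟩

/-- `R / (u j ^ p ^ e, j < i)` twisted by `l` -/
abbrev Ti (i e : ℕ) (l : S.Coc) : Type := S.Tw (S.II p i e) l

/-- `R / (u j ^ p ^ e)` twisted by `l` -/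
abbrev T (e : ℕ) (l : S.Coc) : Type := S.Ti p c e l

/-- the level `e` part of `L_l / (u j ^ ∞, j < i)` -/
abbrev Hi (i e : ℕ) (l : S.Coc) : Type := S.Ti p i e (l * (S.B i ^ p ^ e)⁻¹)

variable {p}

/-- multiplication by `x * (∏ j < i, u j) ^ (p ^ e' - p ^ e)` -/
noncomputable def tr (i : ℕ) {e e' : ℕ} (h : e ≤ e') (x : RR K c) (l l' : S.Coc) :
    S.Ti p i e l →ₗ[RR K c] S.Ti p i e' l' :=
  mul _ _ l l' (x * UU K c i ^ (p ^ e' - p ^ e)) fun y hy => by
    rw [mul_assoc]
    exact Ideal.mul_mem_left _ _ (UU_mul_mem i (Nat.pow_le_pow_right hp.out.pos h) y hy)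

/-- the projection to a lower level -/
noncomputable def pr (i : ℕ) {e e' : ℕ} (h : e ≤ e') (l : S.Coc) :
    S.Ti p i e' l →ₗ[RR K c] S.Ti p i e l :=
  mul _ _ l l 1 fun y hy => by
    rw [one_mul]
    exact IN_mono le_rfl (Nat.pow_le_pow_right hp.out.pos h) hy

variable (p)

/-- `x : H^s(G; H^c_m(L_l)) → H^s(G; H^c_m(L_l'))` is zero. -/
def Kill (s : ℕ) (x : RR K c) (l l' : S.Coc) : Prop :=
  ∀ (e : ℕ) (F : (Fin (s + 1) → G) → S.Hi p c e l), IsCoch G F → dd F = 0 →
    ∃ e', ∃ h : e ≤ e', Cb G s (M := S.Hi p c e' l') fun y => S.tr c h x _ _ (F y)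

/-- **(BV)** for the line `L_l`; here `φ g v = β g * v`. -/
def BV (v : RR K c) (β l : S.Coc) : Prop := ∀ s, ∃ A, S.Kill p s (v ^ A) l (l * (β ^ A)⁻¹)

end SA

end P261.Ser
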