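import Vale.Agent.P261Z.Ser.Dual
import Vale.Agent.P261Z.Cs.Htpy

/-!
# P261, last step of block P: from `RΓ_m(L)` to the modules `T`, abstract part
-/

open MvPowerSeries

namespace P261.Ser

open P261.Cs

variable {G K : Type} [TopologicalSpace G] [Group G] [Field K] {c : ℕ}

namespace SA

variable {S : SA G K c}

/-- multiplication by `x` is an equivariant map `Tw I l → Tw I' l'` -/
structure Mu (I I' : S.SI) (l l' : S.Coc) (x : RR K c) : Prop where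
  mem : ∀ y ∈ I.1, x * y ∈ I'.1
  equi : ∀ g, x * val l g - val l' g * S.φ g x ∈ I'.1

theorem Mu.comp {I I' I'' : S.SI} {l l' l'' : S.Coc} {x y : RR K c} (h' : Mu I' I'' l' l'' y)
    (h : Mu I I' l l' x) : Mu I I'' l l'' (y * x) where
  mem z hz := by
    rw [mul_assoc]
    exact h'.mem _ (h.mem z hz)
  equi g := by
    convert I''.1.add_mem (h'.mem _ (h.equi g)) (I''.1.mul_mem_right (S.φ g x) (h'.equi g)) using 1
    rw [map_mul]
    ring

theorem Mu.cast {I I' : S.SI} {l l' m m' : S.Coc} {x y : RR K c} (h : Mu I I' l l' x)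
    (e : l = m) (e' : l' = m') (e'' : x = y) : Mu I I' m m' y := e ▸ e' ▸ e'' ▸ h

theorem mu_one {I I' : S.SI} (h : I.1 ≤ I'.1) (l : S.Coc) : Mu I I' l l 1 :=
  ⟨fun y hy => by rw [one_mul]; exact h hy, fun g => by simp⟩

theorem mu_semi (I : S.SI) {l l' : S.Coc} {x : RR K c}
    (hx : ∀ g, x * val l g = val l' g * S.φ g x) : Mu I I l l' x :=
  ⟨fun _ hy => I.1.mul_mem_left _ hy, fun g => by rw [hx, sub_self]; exact I.1.zero_mem⟩

variable (p : ℕ) [hp : Fact p.Prime] [CharP K p]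

theorem mu_X (j : Fin c) (e m : ℕ) (l : S.Coc) :
    Mu (S.II p j e) (S.II p j e) l (l * (S.bc j ^ (p ^ e * m))⁻¹) (X j ^ (p ^ e * m)) where
  mem _ hy := Ideal.mul_mem_left _ _ hy
  equi g := by
    obtain ⟨z, hz⟩ := sub_dvd_pow_sub_pow (S.φ g (X j ^ p ^ e)) ((val (S.bc j) g * X j) ^ p ^ e) m
    have h := S.val_mul_inv (S.bc j ^ (p ^ e * m)) g
    rw [← map_pow, ← pow_mul, ← pow_mul, mul_pow] at hz
    rw [val_pow] at h
    change _ ∈ IN K c j (p ^ e)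
    convert Ideal.mul_mem_left _ (-(val l g * val (S.bc j ^ (p ^ e * m))⁻¹ g * z))
      (S.tri_pow p e g j) using 1
    rw [val_mul]
    linear_combination (-(val l g * val (S.bc j ^ (p ^ e * m))⁻¹ g)) * hz -
      (val l g * X j ^ (p ^ e * m)) * h

theorem mu_U (i : ℕ) {e e' : ℕ} (h : e ≤ e') (l : S.Coc) :
    Mu (S.II p i e) (S.II p i e') l (l * (S.B i ^ (p ^ e' - p ^ e))⁻¹)
      (UU K c i ^ (p ^ e' - p ^ e)) where
  mem := UU_mul_mem i (Nat.pow_le_pow_right hp.out.pos h)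
  equi g := by
    have h1 := S.val_mul_inv (S.B i ^ (p ^ e' - p ^ e)) g
    rw [val_pow] at h1
    change _ ∈ IN K c i (p ^ e')
    convert Ideal.mul_mem_left _ (-(val l g * val (S.B i ^ (p ^ e' - p ^ e))⁻¹ g))
      (S.UU_φ p i h g) using 1
    rw [val_mul, mul_pow]
    linear_combination (-(val l g * UU K c i ^ (p ^ e' - p ^ e))) * h1

omit hp [CharP K p] in
theorem exists_sub {e e' : ℕ} (h : e ≤ e') : ∃ m, p ^ e' - p ^ e = p ^ e * m := by
  obtain ⟨d, rfl⟩ := Nat.exists_eq_add_of_le h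
  exact ⟨p ^ d - 1, by rw [Nat.mul_sub, mul_one, pow_add]⟩

theorem mu_X' (j : Fin c) {e e' : ℕ} (h : e ≤ e') (l : S.Coc) :
    Mu (S.II p j e) (S.II p j e) l (l * (S.bc j ^ (p ^ e' - p ^ e))⁻¹) (X j ^ (p ^ e' - p ^ e)) := by
  obtain ⟨m, hm⟩ := exists_sub p h
  rw [hm]
  exact mu_X p j e m l

theorem B_succ (S : SA G K c) (j : Fin c) : S.B (j + 1) = S.bc j * S.B j := by
  have hj : j ∉ lo c j := by simp [mem_lo]
  rw [B, B, ← Finset.prod_insert hj, ← lo_succ j]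

end SA

theorem UU_succ (j : Fin c) : UU K c (j + 1) = X j * UU K c j := by
  have hj : j ∉ lo c j := by simp [mem_lo]
  rw [UU, UU, ← Finset.prod_insert hj, ← lo_succ j]

/-- division by `u j ^ N` -/
noncomputable def shf (j : Fin c) (N : ℕ) : RR K c →+ RR K c where
  toFun f := fun d => coeff (d + Finsupp.single j N) f
  map_zero' := rfl
  map_add' _ _ := rfl

theorem coeff_shf (j : Fin c) (N : ℕ) (f : RR K c) (d : Fin c →₀ ℕ) :
    coeff d (shf j N f) = coeff (d + Finsupp.single j N) f := rfl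

theorem shf_mem (j : Fin c) (N M : ℕ) {f : RR K c}
    (h : f ∈ Vale.Agent.P261Z.Ev.IX (Fin c) K ^ (M + N)) :
    shf j N f ∈ Vale.Agent.P261Z.Ev.IX (Fin c) K ^ M :=
  Vale.Agent.P261Z.Ev.mem_pow M _ fun d hd => by
    rw [coeff_shf, coeff_of_mem_pow h _ (by simpa using hd)]

theorem sub_shf (j : Fin c) (N : ℕ) {f : RR K c} (h : f ∈ IN K c (j + 1) N) :
    f - X j ^ N * shf j N f ∈ IN K c j N := mem_IN.2 fun d hd => by
  rw [map_sub, coeff_X_pow_mul']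
  split_ifs with h1
  · rw [coeff_shf, tsub_add_cancel_of_le (Finsupp.single_le_iff.2 h1), sub_self]
  · rw [sub_zero]
    refine mem_IN.1 h d fun i hi => ?_
    rcases Nat.lt_succ_iff_lt_or_eq.1 hi with h2 | h2
    · exact hd i h2
    · rw [Fin.ext h2]
      exact not_le.1 h1

theorem LCm.shf {Y : Type*} [TopologicalSpace Y] {f : Y → RR K c} (h : LCm f) (j : Fin c)
    (N : ℕ) : LCm fun y => shf j N (f y) := fun M =>
  (h (M + N)).comp (QuotientAddGroup.map (Vale.Agent.P261Z.Ev.IX (Fin c) K ^ (M + N)).toAddSubgroup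
    (Vale.Agent.P261Z.Ev.IX (Fin c) K ^ M).toAddSubgroup (Ser.shf j N)
    fun _ hx => shf_mem j N M hx)

open SA

/-- an exact functor on the modules `Tw I l` -/
structure NFun (S : SA G K c) (k : Type) [CommRing k] where
  /-- objects -/
  N : S.SI → S.Coc → Cos.{0} k
  /-- multiplications -/
  mul : ∀ {I I' : S.SI} {l l' : S.Coc} {x : RR K c}, Mu I I' l l' x → Hom (N I l) (N I' l')
  comp : ∀ {I I' I'' : S.SI} {l l' l'' : S.Coc} {x y : RR K c} (h' : Mu I' I'' l' l'' y)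
    (h : Mu I I' l l' x) (n : ℕ) (a : (N I l).X n),
    (mul h').app n ((mul h).app n a) = (mul (h'.comp h)).app n a
  zero : ∀ {I I' : S.SI} {l l' : S.Coc} {x : RR K c} (h : Mu I I' l l' x), x ∈ I'.1 →
    ∀ n a, (mul h).app n a = 0
  inj : ∀ {I : S.SI} {l l' : S.Coc} {x : RR K c} (h : Mu I I l l' x),
    (∀ y, x * y ∈ I.1 → y ∈ I.1) → ∀ n, Function.Injective ((mul h).app n)
  surj : ∀ {I I' : S.SI} {l : S.Coc} (h : Mu I I' l l 1) (n : ℕ),
    Function.Surjective ((mul h).app n)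
  exact : ∀ {I I' : S.SI} {l l' : S.Coc} {x : RR K c} (h : Mu I I l l' x) (h' : Mu I I' l' l' 1),
    ∀ (j : Fin c) (N : ℕ), (∀ y ∈ I'.1, y - x * shf j N y ∈ I.1) →
    ∀ n a, (mul h').app n a = 0 → ∃ b, (mul h).app n b = a

namespace NFun

variable {S : SA G K c} {k : Type} [CommRing k] (F : NFun S k)

theorem congr {I I' : S.SI} {l l' : S.Coc} {x y : RR K c} (h : Mu I I' l l' x)
    (h' : Mu I I' l l' y) (e : x = y) (n : ℕ) (a : (F.N I l).X n) :
    (F.mul h).app n a = (F.mul h').app n a := by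
  subst e
  rfl

variable (p : ℕ) [hp : Fact p.Prime] [CharP K p]

/-- the cohomology is killed by powers of the variables -/
def Tors : Prop := ∀ (j : Fin c) (e : ℕ) (l : S.Coc) (s : ℕ) (a : (F.N (S.II p j e) l).X s),
  (F.N _ l).d s a = 0 → ∃ e', ∃ h : e ≤ e', (F.mul (mu_X' p j h l)).app s a ∈ (F.N _ _).bd s

/-- `x` kills `H^s` of `L_l / (u j ^ ∞, j < i)` -/
def Kl (i s : ℕ) (x : RR K c) (l l' : S.Coc) : Prop :=
  ∀ (e : ℕ) (a : (F.N (S.II p i e) (l * (S.B i ^ p ^ e)⁻¹)).X s), (F.N _ _).d s a = 0 →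
    ∃ e', e ≤ e' ∧ ∃ h : Mu (S.II p i e) (S.II p i e') (l * (S.B i ^ p ^ e)⁻¹)
      (l' * (S.B i ^ p ^ e')⁻¹) (x * UU K c i ^ (p ^ e' - p ^ e)),
      (F.mul h).app s a ∈ (F.N _ _).bd s

theorem kl_succ (hT : F.Tors p) (j : Fin c) (s : ℕ) {x : RR K c} {l l' : S.Coc}
    (hx : ∀ g, x * val l g = val l' g * S.φ g x) (H : F.Kl p j (s + 1) x l l') :
    F.Kl p (j + 1) s x l l' := by
  intro e ξ hξ
  have hι : ∀ (e : ℕ) (l : S.Coc), Mu (S.II p j e) (S.II p j e) (l * (S.B j ^ p ^ e)⁻¹)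
      (l * (S.B (j + 1) ^ p ^ e)⁻¹) (X j ^ p ^ e) := fun e l =>
    (mu_X p j e 1 _).cast rfl (by rw [B_succ, mul_one, mul_pow, mul_inv, mul_assoc, mul_comm _⁻¹])
      (by rw [mul_one])
  have hπ : ∀ (e : ℕ) (l : S.Coc), Mu (S.II p j e) (S.II p (j + 1) e) l l 1 := fun e l =>
    mu_one (IN_mono (Nat.le_succ _) le_rfl) l
  have hreg : ∀ y, X j ^ p ^ e * y ∈ (S.II p j e).1 → y ∈ (S.II p j e).1 :=
    fun y hy => mem_IN_of_mul le_rfl hy
  obtain ⟨η, rfl⟩ := F.surj (hπ e _) s ξ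
  rw [← Hom.map_d] at hξ
  obtain ⟨ζ, hζ⟩ := F.exact (hι e l) (hπ e _) j (p ^ e) (fun y hy => sub_shf j _ hy) _ _ hξ
  have hζ0 : (F.N _ _).d (s + 1) ζ = 0 := F.inj (hι e l) hreg _ <| by
    rw [Hom.map_d, hζ, dd, map_zero]
  obtain ⟨e', he, hτ, θ, hθ⟩ := H e ζ hζ0
  have hN := Nat.pow_le_pow_right hp.out.pos he
  have hμ : Mu (S.II p j e) (S.II p j e') (l * (S.B (j + 1) ^ p ^ e)⁻¹)
      (l' * (S.B (j + 1) ^ p ^ e')⁻¹) (x * UU K c (j + 1) ^ (p ^ e' - p ^ e)) :=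
    (((mu_U p j he _).comp (mu_X' p j he _)).comp
      (mu_semi (l' := l' * (S.B (j + 1) ^ p ^ e)⁻¹) _ fun g => by
        rw [val_mul, val_mul, ← mul_assoc, hx]
        ring)).cast rfl (by
      rw [mul_assoc, mul_assoc, ← mul_inv, ← mul_inv, ← mul_pow, ← B_succ, ← pow_add,
        Nat.add_sub_cancel' hN]) (by rw [UU_succ]; ring)
  have h1 : (F.N _ _).d s ((F.mul hμ).app s η - (F.mul (hι e' l')).app s θ) = 0 := by
    rw [map_sub, ← Hom.map_d, ← Hom.map_d, ← hζ, hθ, F.comp, F.comp, sub_eq_zero]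
    refine F.congr _ _ ?_ _ _
    have : (X j : RR K c) ^ p ^ e' = X j ^ (p ^ e' - p ^ e) * X j ^ p ^ e := by
      rw [← pow_add, Nat.sub_add_cancel hN]
    rw [UU_succ, this]
    ring
  obtain ⟨e'', he', h2⟩ := hT j e' _ s _ h1
  have hN' := Nat.pow_le_pow_right hp.out.pos he'
  have hρ : Mu (S.II p j e') (S.II p (j + 1) e'')
      (l' * (S.B (j + 1) ^ p ^ e')⁻¹ * (S.bc j ^ (p ^ e'' - p ^ e'))⁻¹)
      (l' * (S.B (j + 1) ^ p ^ e'')⁻¹) (UU K c j ^ (p ^ e'' - p ^ e')) :=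
    ((hπ e'' _).comp (mu_U p j he' _)).cast rfl (by
      rw [mul_assoc, mul_assoc, ← mul_inv, ← mul_inv, ← mul_pow, ← B_succ, ← pow_add,
        Nat.add_sub_cancel' hN']) (one_mul _)
  have hτ' : Mu (S.II p (j + 1) e) (S.II p (j + 1) e'') (l * (S.B (j + 1) ^ p ^ e)⁻¹)
      (l' * (S.B (j + 1) ^ p ^ e'')⁻¹) (x * UU K c (j + 1) ^ (p ^ e'' - p ^ e)) :=
    ((mu_U p (j + 1) (he.trans he') _).comp
      (mu_semi (l' := l' * (S.B (j + 1) ^ p ^ e)⁻¹) _ fun g => by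
        rw [val_mul, val_mul, ← mul_assoc, hx]
        ring)).cast rfl (by
      rw [mul_assoc, ← mul_inv, ← pow_add, Nat.add_sub_cancel' (hN.trans hN')]) (mul_comm _ _)
  refine ⟨e'', he.trans he', hτ', ?_⟩
  have h3 := (F.mul hρ).map_bd h2
  rw [map_sub, map_sub, F.comp, F.comp, F.comp, F.comp, F.zero (_ : Mu _ _ _ _ (_ * X j ^ p ^ e')),
    sub_zero] at h3
  · rw [F.comp]
    convert h3 using 1
    refine F.congr _ _ ?_ _ _
    have : p ^ e'' - p ^ e = (p ^ e'' - p ^ e') + (p ^ e' - p ^ e) := by omega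
    rw [this, pow_add, UU_succ]
    ring
  · rw [mul_assoc, ← pow_add, Nat.sub_add_cancel hN']
    exact Ideal.mul_mem_left _ _ (X_pow_mem (Nat.lt_succ_self _) _)

theorem kl_of (hT : F.Tors p) {x : RR K c} {l l' : S.Coc}
    (hx : ∀ g, x * val l g = val l' g * S.φ g x) (i : ℕ) (hi : i ≤ c) (s : ℕ)
    (H : F.Kl p 0 (s + i) x l l') : F.Kl p i s x l l' := by
  induction i generalizing s with
  | zero => exact H
  | succ i ih =>
    exact F.kl_succ p hT ⟨i, hi⟩ s hx (ih (Nat.le_of_succ_le hi) (s + 1)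
      (by rwa [Nat.add_right_comm, Nat.add_assoc]))

end NFun

end P261.Ser
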