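import Mathlib

/-!
# P261, block D3: the character of the socle of a truncated polynomial ring

If `p = 0`, `N = p ^ e` and `d j ^ N = 0`, then
`∏ i, (D *ᵥ d) i ^ (N - 1) = (det D) ^ (N - 1) * ∏ i, d i ^ (N - 1)`.
-/

open Matrix

namespace P261.Ser

variable {p : ℕ} [hp : Fact p.Prime]

theorem add_pow_pp {B : Type*} [CommRing B] (h : (p : B) = 0) (e : ℕ) (x y : B) :
    (x + y) ^ p ^ e = x ^ p ^ e + y ^ p ^ e := by
  rcases subsingleton_or_nontrivial B with hB | hB
  · exact Subsingleton.elim _ _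
  · have : CharP B p := (CharP.charP_iff_prime_eq_zero hp.out).2 h
    exact add_pow_char_pow x y p e

theorem pp_pos (e : ℕ) : 0 < p ^ e := pow_pos hp.out.pos e

/-- the `p ^ e`-th power map of a ring with `p = 0` -/
def frp {B : Type*} [CommRing B] (h : (p : B) = 0) (e : ℕ) : B →+* B where
  toFun x := x ^ p ^ e
  map_one' := one_pow _
  map_mul' x y := mul_pow x y _
  map_zero' := zero_pow (pp_pos e).ne'
  map_add' := add_pow_pp h e

theorem frp_apply {B : Type*} [CommRing B] (h : (p : B) = 0) (e : ℕ) (x : B) :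
    frp h e x = x ^ p ^ e := rfl

omit hp in
theorem natCast_zero_of {B C : Type*} [CommRing B] [CommRing C] (f : B →+* C) (h : (p : B) = 0) :
    (p : C) = 0 := by
  rw [← map_natCast f, h, map_zero]

variable {ι : Type*} [Fintype ι] [DecidableEq ι]

omit [DecidableEq ι] in
theorem mulVec_pow {B : Type*} [CommRing B] (h : (p : B) = 0) (e : ℕ) (D : Matrix ι ι B)
    (d : ι → B) (i : ι) : (D *ᵥ d) i ^ p ^ e = ∑ j, D i j ^ p ^ e * d j ^ p ^ e := by
  rw [← frp_apply h, Matrix.mulVec, dotProduct, map_sum]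
  simp only [map_mul, frp_apply]

/-- the socle property of a matrix -/
def SocP {B : Type*} [CommRing B] (N : ℕ) (D : Matrix ι ι B) : Prop :=
  ∀ d : ι → B, (∀ j, d j ^ N = 0) →
    ∏ i, (D *ᵥ d) i ^ (N - 1) = D.det ^ (N - 1) * ∏ i, d i ^ (N - 1)

theorem SocP.mul {B : Type*} [CommRing B] (h : (p : B) = 0) (e : ℕ) {D E : Matrix ι ι B}
    (hD : SocP (p ^ e) D) (hE : SocP (p ^ e) E) : SocP (p ^ e) (D * E) := by
  intro d hd
  rw [← Matrix.mulVec_mulVec, hD (E *ᵥ d), hE d hd, det_mul, mul_pow, mul_assoc]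
  intro j
  rw [mulVec_pow h]
  simp [hd]

theorem socP_diagonal {B : Type*} [CommRing B] (N : ℕ) (a : ι → B) : SocP N (diagonal a) := by
  intro d _
  simp only [mulVec_diagonal, mul_pow, Finset.prod_mul_distrib, det_diagonal, Finset.prod_pow]

theorem socP_transvection {B : Type*} [CommRing B] {N : ℕ} (hN : 0 < N) {i j : ι} (hij : i ≠ j)
    (c : B) : SocP N (transvection i j c) := by
  intro d hd
  rw [det_transvection_of_ne i j hij, one_pow, one_mul]
  have h1 : ∀ l, (transvection i j c *ᵥ d) l = d l + if l = i then c * d j else 0 := by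
    intro l
    rw [transvection, add_mulVec, one_mulVec, single_mulVec, Pi.add_apply]
    by_cases hl : l = i
    · subst hl; simp
    · simp [hl]
  rw [← Finset.mul_prod_erase _ _ (Finset.mem_univ i), ← Finset.mul_prod_erase _
    (fun l => d l ^ (N - 1)) (Finset.mem_univ i)]
  have h2 : ∏ l ∈ Finset.univ.erase i, (transvection i j c *ᵥ d) l ^ (N - 1) =
      ∏ l ∈ Finset.univ.erase i, d l ^ (N - 1) := by
    refine Finset.prod_congr rfl fun l hl => ?_
    rw [h1, if_neg (Finset.ne_of_mem_erase hl), add_zero]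
  rw [h2, h1, if_pos rfl, ← Finset.mul_prod_erase _ (fun l => d l ^ (N - 1))
    (Finset.mem_erase.2 ⟨hij.symm, Finset.mem_univ j⟩), ← sub_eq_zero, ← sub_mul]
  obtain ⟨x, hx⟩ := sub_dvd_pow_sub_pow (d i + c * d j) (d i) (N - 1)
  have h3 : d j * d j ^ (N - 1) = 0 := by
    rw [← pow_succ', Nat.sub_add_cancel hN, hd]
  rw [hx]
  linear_combination (c * x * ∏ l ∈ (Finset.univ.erase i).erase j, d l ^ (N - 1)) * h3

theorem socP_field {K B : Type*} [Field K] [CommRing B] (f : K →+* B) (h : (p : B) = 0) (e : ℕ)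
    (M : Matrix ι ι K) : SocP (p ^ e) (M.map f) := by
  refine Matrix.diagonal_transvection_induction (fun M => SocP (p ^ e) (M.map f)) M ?_ ?_ ?_
  · intro a _
    rw [diagonal_map (map_zero f)]
    exact socP_diagonal _ _
  · intro t
    have : t.toMatrix.map f = transvection t.i t.j (f t.c) := by
      ext a b
      simp only [TransvectionStruct.toMatrix, transvection, map_apply, Matrix.add_apply, map_add,
        Matrix.one_apply, single_apply, apply_ite f, map_one, map_zero]
    rw [this]
    exact socP_transvection (pp_pos e) t.hij _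
  · intro A B' hA hB
    rw [Matrix.map_mul]
    exact hA.mul h e hB

open MvPolynomial in
/-- the polynomial identity behind the socle property -/
noncomputable def socPoly {B : Type*} [CommRing B] (N : ℕ) (D : Matrix ι ι B) :
    MvPolynomial ι B :=
  ∏ i, (D.map C *ᵥ X) i ^ (N - 1) - C (D.det ^ (N - 1)) * ∏ i, X i ^ (N - 1)

open MvPolynomial in
theorem hom_socPoly {B B' : Type*} [CommRing B] [CommRing B'] (N : ℕ) (D : Matrix ι ι B)
    (g : MvPolynomial ι B →+* B') :
    g (socPoly N D) = ∏ i, (D.map (g.comp C) *ᵥ fun j => g (X j)) i ^ (N - 1) -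
      (D.map (g.comp C)).det ^ (N - 1) * ∏ i, g (X i) ^ (N - 1) := by
  have h1 : (D.map (g.comp C)).det = g (C D.det) := ((g.comp C).map_det D).symm
  rw [h1]
  simp only [socPoly, map_sub, map_mul, map_prod, map_pow, mulVec, dotProduct, map_sum, map_apply,
    RingHom.comp_apply]

open MvPolynomial in
omit [DecidableEq ι] [Fintype ι] in
theorem mem_span_pow_iff {B : Type*} [CommRing B] (N : ℕ) (f : MvPolynomial ι B) :
    f ∈ Ideal.span (Set.range fun j : ι => (X j : MvPolynomial ι B) ^ N) ↔
      ∀ a ∈ f.support, ∃ j, N ≤ a j := by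
  have h : (Set.range fun j : ι => (X j : MvPolynomial ι B) ^ N) =
      (fun s => monomial s (1 : B)) '' Set.range fun j : ι => Finsupp.single j N := by
    rw [← Set.range_comp]
    congr 1
    funext j
    exact X_pow_eq_monomial
  rw [h, mem_ideal_span_monomial_image]
  refine forall₂_congr fun a _ => ⟨?_, ?_⟩
  · rintro ⟨_, ⟨j, rfl⟩, hj⟩
    exact ⟨j, Finsupp.single_le_iff.1 hj⟩
  · rintro ⟨j, hj⟩
    exact ⟨_, ⟨j, rfl⟩, Finsupp.single_le_iff.2 hj⟩

open MvPolynomial in
theorem socPoly_mem_field {K : Type*} [Field K] (h : (p : K) = 0) (e : ℕ) (M : Matrix ι ι K) :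
    socPoly (p ^ e) M ∈
      Ideal.span (Set.range fun j : ι => (X j : MvPolynomial ι K) ^ p ^ e) := by
  set I := Ideal.span (Set.range fun j : ι => (X j : MvPolynomial ι K) ^ p ^ e)
  rw [← Ideal.Quotient.eq_zero_iff_mem, hom_socPoly, sub_eq_zero]
  refine socP_field ((Ideal.Quotient.mk I).comp C) (natCast_zero_of ((Ideal.Quotient.mk I).comp C) h)
    e M _ fun j => ?_
  rw [← map_pow, Ideal.Quotient.eq_zero_iff_mem]
  exact Ideal.subset_span ⟨j, rfl⟩

open MvPolynomial in
theorem map_socPoly {B B' : Type*} [CommRing B] [CommRing B'] (f : B →+* B') (N : ℕ)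
    (D : Matrix ι ι B) : MvPolynomial.map f (socPoly N D) = socPoly N (D.map f) := by
  rw [hom_socPoly, socPoly]
  have h1 : (MvPolynomial.map (σ := ι) f).comp C = C.comp f := by
    ext1 a
    simp
  have h2 : D.map (C.comp f : B →+* MvPolynomial ι B') = (D.map f).map C := rfl
  have h3 : ((D.map f).map (C : B' →+* MvPolynomial ι B')).det = C (D.map f).det :=
    (RingHom.map_det _ _).symm
  simp only [h1, h2, h3, map_X, map_pow]

open MvPolynomial in
/-- **The socle character.** -/
theorem socP {B : Type*} [CommRing B] (h : (p : B) = 0) (e : ℕ) (D : Matrix ι ι B) :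
    SocP (p ^ e) D := by
  intro d hd
  rcases subsingleton_or_nontrivial B with hB | hB
  · exact Subsingleton.elim _ _
  have : CharP B p := (CharP.charP_iff_prime_eq_zero hp.out).2 h
  let B0 := MvPolynomial (ι × ι) (ZMod p)
  let K := FractionRing B0
  let G : Matrix ι ι B0 := Matrix.of fun i j => X (i, j)
  have hK : (p : K) = 0 :=
    natCast_zero_of ((algebraMap B0 K).comp C) (ZMod.natCast_self p)
  have h1 := socPoly_mem_field hK e (G.map (algebraMap B0 K))
  rw [← map_socPoly, mem_span_pow_iff,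
    support_map_of_injective _ (IsFractionRing.injective B0 K), ← mem_span_pow_iff] at h1
  let f : B0 →+* B := eval₂Hom (ZMod.castHom (dvd_refl p) B) fun x => D x.1 x.2
  let g : MvPolynomial ι B0 →+* B := eval₂Hom f d
  have h2 : g (socPoly (p ^ e) G) = 0 := by
    refine (Ideal.span_le (I := RingHom.ker g)).2 ?_ h1
    rintro _ ⟨j, rfl⟩
    change g _ = 0
    simp [g, hd]
  have h3 : G.map (g.comp C) = D := by
    ext i j
    change g (C (X (i, j))) = D i j
    rw [show g (C (X (i, j))) = f (X (i, j)) from eval₂Hom_C _ _ _]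
    exact eval₂Hom_X' _ _ _
  have h4 : ∀ j, g (X j) = d j := fun j => by simp [g]
  rw [hom_socPoly, h3, sub_eq_zero] at h2
  simpa only [h4] using h2

end P261.Ser
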